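import Vale.Agent.P147.Rec.Flux
import Vale.Agent.P147.Speed.Coins
import Vale.Agent.P147.Mixing

/-!
P147, one thin escape side: when downward escape has positive probability, in almost every
environment a walk can, from any given site, fall for ever.
-/

open MeasureTheory Filter Finset
open scoped ENNReal

namespace Vale.Agent.P147.Rec

open Vale.Agent.P147.Cond Vale.Agent.P147.Dir Vale.Agent.P147.Dir.Blocks Vale.Agent.P147.Glue
open Vale.Agent.P147.Semi (lvl lev lvl_eq qLaw_markov)

set_option linter.unusedSectionVars false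

variable {d k : ℕ} [NeZero k] (v : Fin k → Site d) (μ : Measure (Row k)) [IsProbabilityMeasure μ]
  (l : Fin d → ℤ)

/-- All transition probabilities are positive. -/
def Full (ω : Site d → Row k) : Prop := ∀ x i, 0 < (ω x).1 i

theorem ae_full (hell : ∀ i, ∀ᵐ p ∂μ, 0 < (p : Row k).1 i) : ∀ᵐ ω ∂envLaw (d := d) μ, Full ω :=
  ae_all_iff.2 fun x => ae_all_iff.2 fun i =>
    (measurePreserving_eval_infinitePi (fun _ : Site d => μ) x).quasiMeasurePreserving.ae (hell i)

theorem weight_ne_zero {ω : Site d → Row k} (hω : Full ω) (x : Site d) (s : ℕ → Fin k) (n : ℕ) :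
    weight v s n (seen x ω) ≠ 0 :=
  Finset.prod_ne_zero_iff.2 fun _ _ => (ENNReal.ofReal_pos.2 (hω _ _)).ne'

/-- From `x` the walk can stay at nonpositive levels for ever and escape downwards. -/
def below (x : Site d) : Set (ℕ → Fin k) :=
  {t | ∀ m, lev l (x + pos v t m) ≤ 0} ∩ up v (-lvl l)

theorem measurableSet_below (x : Site d) : MeasurableSet (below v l x) := by
  refine MeasurableSet.inter ?_ (measurableSet_up v _)
  simp only [Set.ofPred_forall]
  exact .iInter fun m => measurableSet_pos_mem v m {z | lev l (x + z) ≤ 0}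

theorem below_step {ω : Site d → Row k} (hω : Full ω) (x : Site d) (i : Fin k)
    (hx : lev l x ≤ 0) (h : qLaw v (seen (x + v i) ω) (below v l (x + v i)) ≠ 0) :
    qLaw v (seen x ω) (below v l x) ≠ 0 := by
  classical
  set E : Set (ℕ → Fin k) := {t | ∀ q < 1, t q = i}
  have hE : ∀ t t' : ℕ → Fin k, (∀ q < 1, t q = t' q) → t ∈ E → t' ∈ E := fun t t' e ht q hq => by
    rw [← e q hq]; exact ht q hq
  have hpos : ∀ t ∈ E, pos v t 1 = v i := fun t ht => by simp [pos, ht 0 one_pos]
  have hval : qLaw v (seen x ω) E ≠ 0 := by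
    rw [show E = {t | ∀ q < 1, t q = (fun _ => i) q} from rfl, qLaw_prefix]
    exact weight_ne_zero v hω x _ 1
  intro h0
  refine mul_ne_zero hval h ?_
  have hm := qLaw_markov v (seen x ω) 1 hE (z := v i) hpos (measurableSet_below v l (x + v i))
  rw [seen_seen] at hm
  rw [← hm]
  refine measure_mono_null ?_ h0
  rintro t ⟨htE, htb⟩
  refine ⟨fun m => ?_, (up_shift t).1 htb.2⟩
  rcases m with _ | m
  · simpa [pos] using hx
  · have := htb.1 m
    rw [add_comm m 1, shift_pos, hpos t htE, ← add_assoc]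
    exact this
where
  up_shift (t : ℕ → Fin k) : shift 1 t ∈ up v (-lvl l) ↔ t ∈ up v (-lvl l) :=
    Dir.up_shift v (-lvl l) t 1

theorem below_word {ω : Site d → Row k} (hω : Full ω) :
    ∀ (w : List (Fin k)) (x : Site d), lev l x ≤ 0 → lev l (x + (w.map v).sum) ≤ 0 →
      qLaw v (seen (x + (w.map v).sum) ω) (below v l (x + (w.map v).sum)) ≠ 0 →
      qLaw v (seen x ω) (below v l x) ≠ 0 := by
  classical
  have hadd : ∀ a b : Site d, lev l (a + b) = lev l a + lev l b := fun a b => by
    simp [lev, mul_add, sum_add_distrib]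
  have hz : lev l (0 : Site d) = 0 := by simp [lev]
  have hpos : ∀ u : List (Fin k), (∀ i ∈ u, 0 ≤ lev l (v i)) → 0 ≤ lev l (u.map v).sum := by
    intro u hu
    induction u with
    | nil => simp [hz]
    | cons i u ih =>
      rw [List.map_cons, List.sum_cons, hadd]
      exact add_nonneg (hu i (by simp)) (ih fun j hj => hu j (by simp [hj]))
  intro w
  induction n : w.length generalizing w with
  | zero =>
    intro x _ _ h
    rw [List.length_eq_zero_iff] at n
    subst n
    simpa using h
  | succ q ih =>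
    intro x hx he h
    obtain ⟨i, hiw, hi⟩ : ∃ i ∈ w, lev l (x + v i) ≤ 0 := by
      by_cases hex : ∃ i ∈ w, lev l (v i) ≤ 0
      · obtain ⟨i, h1, h2⟩ := hex
        exact ⟨i, h1, by rw [hadd]; linarith⟩
      · push Not at hex
        obtain ⟨i, u, rfl⟩ := List.exists_cons_of_length_eq_add_one n
        refine ⟨i, by simp, ?_⟩
        have h1 := hpos u fun j hj => (hex j (by simp [hj])).le
        rw [List.map_cons, List.sum_cons, ← add_assoc, hadd] at he
        linarith
    have hperm := (List.perm_cons_erase hiw).map v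
    have hsum : (w.map v).sum = v i + ((w.erase i).map v).sum := by
      rw [hperm.sum_eq, List.map_cons, List.sum_cons]
    rw [hsum, ← add_assoc] at he h
    exact below_step v l hω x i hx
      (ih (w.erase i) (by rw [List.length_erase_of_mem hiw, n]; omega) _ hi he h)

/-- Falling for ever is possible in almost every environment. -/
theorem ae_fall_pos (hell : ∀ i, ∀ᵐ p ∂μ, 0 < (p : Row k).1 i)
    (hunit : ∀ j, (∃ i, v i = Pi.single j 1) ∧ ∃ i, v i = Pi.single j (-1))
    (hne : ∃ a, l a ≠ 0) (hq : law v μ (StayUp v (-lvl l)) ≠ 0) :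
    ∀ᵐ ω ∂envLaw (d := d) μ, fall v l 0 ω ≠ 0 := by
  classical
  have hadd : ∀ a b : Site d, lev l (a + b) = lev l a + lev l b := fun a b => by
    simp [lev, mul_add, sum_add_distrib]
  obtain ⟨ia, ha⟩ := hne
  set P := envLaw (d := d) μ
  let G : ℤ → Set (Site d → Row k) := fun c => {ω | ∃ y, lev l y ≤ c ∧ fall v l y ω ≠ 0}
  set Gt : Set (Site d → Row k) := {ω | ∃ y, fall v l y ω ≠ 0}
  have hm : ∀ y, MeasurableSet {ω : Site d → Row k | fall v l y ω ≠ 0} := fun y =>
    ((measurable_qLaw v (meas_StayUp v _)).comp (measurable_seen y) (measurableSet_singleton 0)).compl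
  have hGm : ∀ c, MeasurableSet (G c) := fun c => by
    rw [show G c = ⋃ y ∈ {y : Site d | lev l y ≤ c}, {ω | fall v l y ω ≠ 0} by ext; simp [G]]
    exact .biUnion (Set.to_countable _) fun y _ => hm y
  have hGtm : MeasurableSet Gt := by
    rw [show Gt = ⋃ y, {ω | fall v l y ω ≠ 0} by ext; simp [Gt]]
    exact .iUnion hm
  have hfs : ∀ a y ω, fall v l y (seen a ω) = fall v l (a + y) ω := fun a y ω => by
    simp only [fall, seen_seen]
  have hshift : ∀ (a : Site d) c, P (G c) = P (G (c + lev l a)) := by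
    intro a c
    have e : seen a ⁻¹' G c = G (c + lev l a) := by
      ext ω
      simp only [G, Set.mem_preimage, Set.mem_ofPred_eq, hfs]
      constructor
      · rintro ⟨y, h1, h2⟩; exact ⟨a + y, by rw [hadd]; linarith, h2⟩
      · rintro ⟨y, h1, h2⟩
        refine ⟨y - a, ?_, by rwa [add_sub_cancel]⟩
        have := hadd a (y - a)
        rw [add_sub_cancel] at this
        linarith
    rw [← e, ← Measure.map_apply (measurable_seen a) (hGm c),
      show P.map (seen a) = P from map_shift_env μ a]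
  have hone : P Gt = 1 := by
    have : Infinite (Site d) := Infinite.of_injective (fun n : ℤ => (Pi.single ia n : Site d))
      fun m n e => by simpa using congrFun e ia
    have h01 : P Gt = 0 ∨ P Gt = 1 := zero_or_one_of_shift_invariant μ hGtm fun F => by
      obtain ⟨a, hout⟩ := Infinite.exists_notMem_finset ((F ×ˢ F).image fun p => p.2 - p.1)
      refine ⟨(a + ·), add_right_injective a, fun i hi hi' => hout (mem_image.2
        ⟨(i, a + i), mem_product.2 ⟨hi, hi'⟩, by simp⟩), ?_⟩
      refine Filter.EventuallyEq.of_eq (Set.ext fun ω => ?_)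
      show seen a ω ∈ Gt ↔ ω ∈ Gt
      simp only [Gt, Set.mem_ofPred_eq, hfs]
      exact ⟨fun ⟨y, hy⟩ => ⟨_, hy⟩, fun ⟨y, hy⟩ => ⟨y - a, by rwa [add_sub_cancel]⟩⟩
    refine h01.resolve_left fun h0 => hq ?_
    rw [← lintegral_qLaw v μ (0 : Site d) (meas_StayUp v _)]
    refine (lintegral_congr_ae ?_).trans lintegral_zero
    filter_upwards [measure_eq_zero_iff_ae_notMem.1 h0] with ω hω
    by_contra hc
    exact hω ⟨0, hc⟩
  have hG0 : P (G 0) = 1 := by
    refine le_antisymm prob_le_one ?_
    have hmono : Monotone fun n : ℕ => G n := fun a b hab ω ⟨y, h1, h2⟩ =>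
      ⟨y, h1.trans (by exact_mod_cast hab), h2⟩
    have hU : Gt ⊆ ⋃ n : ℕ, G n := fun ω ⟨y, hy⟩ =>
      Set.mem_iUnion.2 ⟨(lev l y).toNat, y, Int.self_le_toNat _, hy⟩
    refine hone.symm.le.trans ((measure_mono hU).trans ?_)
    rw [hmono.measure_iUnion]
    refine iSup_le fun n => ?_
    have hs : lev l (Pi.single ia (-(n : ℤ) * l ia) : Site d) ≤ -(n : ℤ) := by
      have e : lev l (Pi.single ia (-(n : ℤ) * l ia) : Site d) = -(n : ℤ) * (l ia * l ia) := by
        simp [lev, Pi.single_apply]
        ring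
      have h1 : 1 ≤ l ia * l ia := by
        have := mul_self_pos.2 ha
        linarith
      rw [e]
      nlinarith
    rw [hshift (Pi.single ia (-(n : ℤ) * l ia)) n]
    exact measure_mono fun ω ⟨y, h1, h2⟩ => ⟨y, by linarith, h2⟩
  have hae : ∀ᵐ ω ∂P, ω ∈ G 0 := by
    rwa [ae_iff, show {ω | ¬ ω ∈ G 0} = (G 0)ᶜ from rfl, prob_compl_eq_zero_iff (hGm 0)]
  filter_upwards [hae, ae_full μ hell] with ω ⟨y, hy, hfy⟩ hω
  obtain ⟨w, hw⟩ := Speed.exists_word v hunit y
  have hlev0 : lev l (0 : Site d) = 0 := by simp [lev]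
  have hb : qLaw v (seen (0 + (w.map v).sum) ω) (below v l (0 + (w.map v).sum)) ≠ 0 := by
    rw [hw, zero_add]
    intro h0
    refine hfy (measure_mono_null (s := StayUp v (-lvl l)) ?_ h0)
    rintro t ht
    refine ⟨fun m => ?_, ht.2⟩
    have h1 := ht.1 m
    simp only [AddMonoidHom.neg_apply, lvl_eq, Left.nonneg_neg_iff] at h1
    have h2 : lev l (pos v t m) ≤ 0 := by exact_mod_cast h1
    rw [hadd]
    linarith
  have h0 := below_word v l hω w 0 hlev0.le (by rw [zero_add, hw]; exact hy) hb
  intro hc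
  rw [fall, seen_zero] at hc
  rw [seen_zero] at h0
  refine h0 (measure_mono_null (s := below v l 0) ?_ hc)
  rintro t ht
  refine ⟨fun m => ?_, ht.2⟩
  have h1 := ht.1 m
  rw [zero_add] at h1
  simp only [AddMonoidHom.neg_apply, lvl_eq, Left.nonneg_neg_iff]
  exact_mod_cast h1

end Vale.Agent.P147.Rec
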