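import Vale.Agent.P147.Rec.Meet
import Vale.Agent.P147.Semi.Pointwise

/-!
P147, one thin escape side: for each site, the quenched chance that a walk from another site sets
a new height record there. Records followed by a fall for ever are exclusive, and two walks at a
common record, which then separate, are exclusive as well.
-/

open MeasureTheory Filter Finset
open scoped ENNReal

namespace Vale.Agent.P147.Rec

open Vale.Agent.P147.Cond Vale.Agent.P147.Dir Vale.Agent.P147.Dir.Blocks Vale.Agent.P147.Glue
open Vale.Agent.P147.Semi (lvl lev lvl_eq Alive alive_congr alive_mono qLaw_markov)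

set_option linter.unusedSectionVars false

variable {d k : ℕ} [NeZero k] (v : Fin k → Site d) (μ : Measure (Row k)) [IsProbabilityMeasure μ]
  (l : Fin d → ℤ) (η : ℝ≥0∞) (h : ℕ)

/-- An alive prefix staying below the height `h`. -/
def Good (n : ℕ) (s : ℕ → Fin k) : Prop :=
  Alive v μ (lvl l) η n s ∧ ∀ r ≤ n, lev l (pos v s r) < h

theorem good_congr {n : ℕ} {s s' : ℕ → Fin k} (hs : ∀ i < n, s' i = s i) :
    Good v μ l η h n s' ↔ Good v μ l η h n s :=
  and_congr (alive_congr v μ (lvl l) η hs) (forall₂_congr fun r hr => by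
    rw [pos_congr v hs hr])

theorem good_mono {n m : ℕ} (hm : m ≤ n) {s : ℕ → Fin k} (hs : Good v μ l η h n s) :
    Good v μ l η h m s :=
  ⟨alive_mono v μ (lvl l) η hm hs.1, fun r hr => hs.2 r (hr.trans hm)⟩

/-- At time `n` a good prefix sets a new record, at displacement `x`. -/
def RecAt (x : Site d) (n : ℕ) : Set (ℕ → Fin k) :=
  {s | Good v μ l η h n s ∧ Cond.Rec v (lvl l) n s ∧ pos v s n = x}

theorem recAt_congr (x : Site d) (n : ℕ) : ∀ s s' : ℕ → Fin k, (∀ i < n, s i = s' i) →
    s ∈ RecAt v μ l η h x n → s' ∈ RecAt v μ l η h x n := by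
  rintro s s' hs ⟨h1, h2, h3⟩
  refine ⟨(good_congr v μ l η h hs).1 h1, fun j hj => ?_, ?_⟩
  · rw [← pos_congr v hs hj.le, ← pos_congr v hs le_rfl]; exact h2 j hj
  · rwa [← pos_congr v hs le_rfl]

theorem measurableSet_recAt (x : Site d) (n : ℕ) : MeasurableSet (RecAt v μ l η h x n) :=
  measurableSet_of_prefix n (recAt_congr v μ l η h x n)

theorem disjoint_recAt (x : Site d) :
    Pairwise (Function.onFun Disjoint (RecAt v μ l η h x)) := fun a b hab => by
  refine Set.disjoint_left.2 fun s ha hb => ?_
  rcases lt_or_gt_of_ne hab with e | e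
  · exact absurd (hb.2.1 a e) (by rw [ha.2.2, hb.2.2]; exact lt_irrefl _)
  · exact absurd (ha.2.1 b e) (by rw [ha.2.2, hb.2.2]; exact lt_irrefl _)

/-- The quenched chance that the walk from `z` sets a good record at `y`. -/
noncomputable def flux (z y : Site d) (ω : Site d → Row k) : ℝ≥0∞ :=
  ∑' n, qLaw v (seen z ω) (RecAt v μ l η h (y - z) n)

theorem measurable_flux (z y : Site d) : Measurable (flux v μ l η h z y) :=
  Measurable.tsum fun n =>
    (measurable_qLaw v (measurableSet_recAt v μ l η h _ n)).comp (measurable_seen z)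

theorem lintegral_flux (z y : Site d) :
    ∫⁻ ω, flux v μ l η h z y ω ∂envLaw μ = law v μ (⋃ n, RecAt v μ l η h (y - z) n) := by
  simp only [flux]
  have hm : ∀ n, Measurable fun ω : Site d → Row k =>
      qLaw v (seen z ω) (RecAt v μ l η h (y - z) n) := fun n =>
    (measurable_qLaw v (measurableSet_recAt v μ l η h _ n)).comp (measurable_seen z)
  rw [lintegral_tsum fun n => (hm n).aemeasurable,
    measure_iUnion (disjoint_recAt v μ l η h _) fun n => measurableSet_recAt v μ l η h _ n]
  exact tsum_congr fun n => lintegral_qLaw v μ z (measurableSet_recAt v μ l η h _ n)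

theorem flux_seen (a z y : Site d) (ω : Site d → Row k) :
    flux v μ l η h z y (seen a ω) = flux v μ l η h (a + z) (a + y) ω := by
  simp only [flux, seen_seen, add_sub_add_left_eq_sub]

theorem flux_congr (z y : Site d) {ω ω' : Site d → Row k}
    (hω : ∀ x, lev l x < lev l y → ω x = ω' x) :
    flux v μ l η h z y ω = flux v μ l η h z y ω' := by
  classical
  refine tsum_congr fun n => ?_
  rw [qLaw_sum v _ n (recAt_congr v μ l η h _ n), qLaw_sum v _ n (recAt_congr v μ l η h _ n)]
  refine sum_congr rfl fun w _ => ?_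
  split_ifs with hw
  · refine prod_congr rfl fun i hi => ?_
    have e : lev l (z + pos v (ext' w) i) < lev l y := by
      have h1 := hw.2.1 i (mem_range.1 hi)
      rw [hw.2.2, lvl_eq, lvl_eq, Int.cast_lt] at h1
      have hadd : ∀ a b : Site d, lev l (a + b) = lev l a + lev l b := fun a b => by
        simp [lev, mul_add, sum_add_distrib]
      rw [hadd, show y = z + (y - z) by abel, hadd]
      linarith
    simp only [seen]
    rw [hω _ e]
  · rfl

/-- The chance, from `y`, never to climb again and to escape downwards. -/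
noncomputable def fall (y : Site d) (ω : Site d → Row k) : ℝ≥0∞ :=
  qLaw v (seen y ω) (StayUp v (-lvl l))

/-- Records at which the walk turns down for ever are exclusive. -/
theorem sum_flux_fall_le (z : Site d) (Y : Finset (Site d)) (ω : Site d → Row k) :
    ∑ y ∈ Y, flux v μ l η h z y ω * fall v l y ω ≤ 1 := by
  classical
  set A : Site d → ℕ → Set (ℕ → Fin k) := fun y n =>
    RecAt v μ l η h (y - z) n ∩ {s | shift n s ∈ StayUp v (-lvl l)}
  have hAm : ∀ y n, MeasurableSet (A y n) := fun y n =>
    (measurableSet_recAt v μ l η h _ n).inter (meas_shift n (meas_StayUp v _))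
  have hA : ∀ y, qLaw v (seen z ω) (⋃ n, A y n) = flux v μ l η h z y ω * fall v l y ω := by
    intro y
    rw [measure_iUnion (fun a b hab => (disjoint_recAt v μ l η h _ hab).mono
        Set.inter_subset_left Set.inter_subset_left) (hAm y), flux, ← ENNReal.tsum_mul_right]
    refine tsum_congr fun n => ?_
    rw [qLaw_markov v _ n (recAt_congr v μ l η h _ n) (z := y - z) (fun s hs => hs.2.2)
      (meas_StayUp v _), seen_seen, add_sub_cancel]
    rfl
  simp only [← hA]
  rw [← measure_biUnion_finset (fun y _ y' _ hne => Set.disjoint_left.2 fun s hs hs' => ?_)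
    fun y _ => .iUnion (hAm y)]
  · exact prob_le_one
  obtain ⟨n, hn, hn'⟩ := Set.mem_iUnion.1 hs
  obtain ⟨m, hm, hm'⟩ := Set.mem_iUnion.1 hs'
  have key : ∀ {a b : ℕ}, a < b → shift a s ∈ StayUp v (-lvl l) → Cond.Rec v (lvl l) b s →
      False := fun {a b} hab ha hb => by
    have h1 := hb a hab
    obtain ⟨c, rfl⟩ := Nat.exists_eq_add_of_le hab.le
    rw [shift_pos, map_add] at h1
    have h2 := ha.1 c
    simp only [AddMonoidHom.neg_apply] at h2
    linarith
  rcases lt_trichotomy n m with e | rfl | e
  · exact key e hn' hm.2.1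
  · exact hne (sub_left_injective (hn.2.2.symm.trans hm.2.2))
  · exact key e hm' hn.2.1

/-- Two walks from one site which stay above it and never share a later site. -/
def Apart : Set ((ℕ → Fin k) × (ℕ → Fin k)) :=
  {x | x.1 ∈ stay v (lvl l) ∧ x.2 ∈ stay v (lvl l) ∧
    ∀ i j, 0 < i → 0 < j → pos v x.1 i ≠ pos v x.2 j}

theorem measurableSet_apart : MeasurableSet (Apart v l) := by
  have e : Apart v l = (stay v (lvl l) ×ˢ stay v (lvl l)) ∩ ⋂ (i : ℕ) (j : ℕ),
      {x | 0 < i → 0 < j → pos v x.1 i ≠ pos v x.2 j} := by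
    ext x; simp [Apart, and_assoc]
  rw [e]
  refine ((measurableSet_stay v _).prod (measurableSet_stay v _)).inter
    (.iInter fun i => .iInter fun j => ?_)
  by_cases hi : 0 < i
  · by_cases hj : 0 < j
    · simp only [hi, hj, true_implies]
      exact (measurableSet_eq_fun ((measurable_pos v i).comp measurable_fst)
        ((measurable_pos v j).comp measurable_snd)).compl
    · simp [hj]
  · simp [hi]

/-- The quenched chance that two walks from `y` stay apart. -/
noncomputable def sep (y : Site d) (ω : Site d → Row k) : ℝ≥0∞ :=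
  ((qLaw v (seen y ω)).prod (qLaw v (seen y ω))) (Apart v l)

theorem sep_congr (y : Site d) {ω ω' : Site d → Row k}
    (hω : ∀ x, lev l y ≤ lev l x → ω x = ω' x) : sep v l y ω = sep v l y ω' := by
  have hagree : ∀ z, 0 ≤ lvl l z → seen y ω z = seen y ω' z := fun z hz => by
    refine hω _ ?_
    rw [lvl_eq] at hz
    have : (0 : ℤ) ≤ lev l z := by exact_mod_cast hz
    simp [lev, mul_add, sum_add_distrib] at this ⊢
    linarith
  simp only [sep, qLaw, Measure.map_prod_map _ _ (measurable_stepsAt v _) (measurable_stepsAt v _)]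
  rw [Measure.map_apply ((measurable_stepsAt v _).prodMap (measurable_stepsAt v _))
      (measurableSet_apart v l),
    Measure.map_apply ((measurable_stepsAt v _).prodMap (measurable_stepsAt v _))
      (measurableSet_apart v l)]
  refine congrArg _ (Set.ext fun u => ⟨fun hu => ?_, fun hu => ?_⟩)
  · show (steps v _ u.1, steps v _ u.2) ∈ Apart v l
    rw [← steps_congr_of_stay v (lvl l) hagree hu.1,
      ← steps_congr_of_stay v (lvl l) hagree hu.2.1]
    exact hu
  · show (steps v _ u.1, steps v _ u.2) ∈ Apart v l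
    rw [← steps_congr_of_stay v (lvl l) (fun z hz => (hagree z hz).symm) hu.1,
      ← steps_congr_of_stay v (lvl l) (fun z hz => (hagree z hz).symm) hu.2.1]
    exact hu

/-- Two walks at a common record which then stay apart are exclusive, and they have met. -/
theorem sum_flux_sep_le (z z' : Site d) (Y : Finset (Site d)) (ω : Site d → Row k) :
    ∑ y ∈ Y, flux v μ l η h z y ω * flux v μ l η h z' y ω * sep v l y ω ≤
      ((qLaw v (seen z ω)).prod (qLaw v (seen z' ω)))
        (Meets v (Good v μ l η h) (z' - z)) := by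
  classical
  set Q := (qLaw v (seen z ω)).prod (qLaw v (seen z' ω))
  let T : ℕ × ℕ → (ℕ → Fin k) × (ℕ → Fin k) → (ℕ → Fin k) × (ℕ → Fin k) := fun p x =>
    (shift p.1 x.1, shift p.2 x.2)
  let A : Site d → ℕ × ℕ → Set ((ℕ → Fin k) × (ℕ → Fin k)) := fun y p =>
    (RecAt v μ l η h (y - z) p.1 ×ˢ RecAt v μ l η h (y - z') p.2) ∩ T p ⁻¹' Apart v l
  have hT : ∀ p, Measurable (T p) := fun p =>
    ((measurable_pi_lambda _ fun i => measurable_pi_apply (p.1 + i)).comp measurable_fst).prodMk
      ((measurable_pi_lambda _ fun i => measurable_pi_apply (p.2 + i)).comp measurable_snd)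
  have hRm := measurableSet_recAt v μ l η h
  have hAm : ∀ y p, MeasurableSet (A y p) := fun y p =>
    ((hRm _ _).prod (hRm _ _)).inter (hT p (measurableSet_apart v l))
  have hsh : ∀ n, Measurable (shift (k := k) n) := fun n =>
    measurable_pi_lambda _ fun i => measurable_pi_apply (n + i)
  have hmap : ∀ (a y : Site d) (n : ℕ), ((qLaw v (seen a ω)).restrict
      (RecAt v μ l η h (y - a) n)).map (shift n) =
        qLaw v (seen a ω) (RecAt v μ l η h (y - a) n) • qLaw v (seen y ω) := by
    intro a y n
    refine Measure.ext fun B hB => ?_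
    rw [Measure.map_apply (hsh n) hB, Measure.restrict_apply' (hRm _ _), Set.inter_comm,
      Measure.smul_apply, smul_eq_mul]
    exact (qLaw_markov v _ n (recAt_congr v μ l η h _ n) (z := y - a) (fun s hs => hs.2.2)
      hB).trans (by rw [seen_seen, add_sub_cancel])
  have hA : ∀ y p, Q (A y p) = qLaw v (seen z ω) (RecAt v μ l η h (y - z) p.1) *
      qLaw v (seen z' ω) (RecAt v μ l η h (y - z') p.2) * sep v l y ω := by
    intro y p
    show Q ((_ ×ˢ _) ∩ T p ⁻¹' Apart v l) = _
    rw [Set.inter_comm, ← Measure.restrict_apply (hT p (measurableSet_apart v l)),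
      ← Measure.map_apply (hT p) (measurableSet_apart v l), ← Measure.prod_restrict,
      show T p = Prod.map (shift p.1) (shift p.2) from rfl,
      ← Measure.map_prod_map _ _ (hsh _) (hsh _), hmap, hmap, Measure.prod_smul_left,
      Measure.prod_smul_right]
    simp only [Measure.smul_apply, smul_eq_mul, sep]
    ring
  have hdis : Pairwise (Function.onFun Disjoint fun yp : Site d × ℕ × ℕ => A yp.1 yp.2) := by
    rintro ⟨y, n, n'⟩ ⟨y', m, m'⟩ hne
    refine Set.disjoint_left.2 ?_
    rintro ⟨a, b⟩ ⟨⟨ha, hb⟩, hx⟩ ⟨⟨ha', hb'⟩, hx'⟩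
    have key : ∀ {y y' : Site d} {n n' m m' : ℕ}, a ∈ RecAt v μ l η h (y - z) n →
        b ∈ RecAt v μ l η h (y - z') n' → a ∈ RecAt v μ l η h (y' - z) m →
        b ∈ RecAt v μ l η h (y' - z') m' → (shift n a, shift n' b) ∈ Apart v l →
        n < m → False := by
      intro y y' n n' m m' ha hb ha' hb' hx hnm
      have h1 : lvl l (y - z) < lvl l (y' - z) := by rw [← ha.2.2, ← ha'.2.2]; exact ha'.2.1 n hnm
      rw [map_sub, map_sub] at h1
      rcases lt_trichotomy n' m' with e | rfl | e
      · obtain ⟨c, rfl⟩ := Nat.exists_eq_add_of_le hnm.le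
        obtain ⟨c', rfl⟩ := Nat.exists_eq_add_of_le e.le
        refine hx.2.2 c c' (by omega) (by omega) ?_
        have e1 := ha'.2.2
        have e2 := hb'.2.2
        rw [shift_pos, ha.2.2] at e1
        rw [shift_pos, hb.2.2] at e2
        rw [← eq_sub_iff_add_eq'] at e1 e2
        rw [e1, e2]
        abel
      · have := hb.2.2.symm.trans hb'.2.2
        rw [sub_left_inj] at this
        rw [this] at h1
        exact lt_irrefl _ h1
      · have h2 : lvl l (y' - z') < lvl l (y - z') := by
          rw [← hb.2.2, ← hb'.2.2]; exact hb.2.1 m' e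
        rw [map_sub, map_sub] at h2
        linarith
    rcases lt_trichotomy n m with e | e | e
    · exact key ha hb ha' hb' hx e
    · subst e
      have hy : y = y' := sub_left_injective (ha.2.2.symm.trans ha'.2.2)
      subst hy
      by_cases e' : n' = m'
      · exact hne (by rw [e'])
      · exact Set.disjoint_left.1 (disjoint_recAt v μ l η h _ e') hb hb'
    · exact key ha' hb' ha hb hx' e
  have hsum : ∀ y, flux v μ l η h z y ω * flux v μ l η h z' y ω * sep v l y ω =
      Q (⋃ p, A y p) := fun y => by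
    rw [measure_iUnion (fun p p' hne => hdis (i := (y, p)) (j := (y, p'))
      fun e => hne (congrArg Prod.snd e)) (hAm y), flux, flux]
    simp only [hA, ENNReal.tsum_prod', ← ENNReal.tsum_mul_left, ← ENNReal.tsum_mul_right]
    exact ENNReal.tsum_comm
  simp only [hsum]
  rw [← measure_biUnion_finset (fun y _ y' _ hne => Set.disjoint_left.2 fun x hx hx' => ?_)
    fun y _ => .iUnion (hAm y)]
  · refine measure_mono (Set.iUnion₂_subset fun y _ => Set.iUnion_subset fun p x hx => ?_)
    exact ⟨p.1, p.2, hx.1.1.1, hx.1.2.1, by rw [hx.1.1.2.2, hx.1.2.2.2]; abel⟩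
  obtain ⟨p, hp⟩ := Set.mem_iUnion.1 hx
  obtain ⟨p', hp'⟩ := Set.mem_iUnion.1 hx'
  exact Set.disjoint_left.1 (hdis (i := (y, p)) (j := (y', p')) fun e => hne (congrArg Prod.fst e))
    hp hp'

end Vale.Agent.P147.Rec
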