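import Vale.Agent.P147.Rec.Fall
import Vale.Agent.P147.Speed.Opposite
import Vale.Agent.P147.Semi.Meet

/-!
P147, one thin escape side in dimension at least four: two walks from one site stay apart with
positive probability.
-/

open MeasureTheory Filter Finset
open scoped ENNReal

namespace Vale.Agent.P147.Rec

open Vale.Agent.P147.Cond Vale.Agent.P147.Dir Vale.Agent.P147.Dir.Blocks Vale.Agent.P147.Glue
open Vale.Agent.P147.Speed
open Vale.Agent.P147.Semi (lvl lev lvl_eq qLaw_markov neg_lvl lev_eq_hi measurable_qPair)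

set_option linter.unusedSectionVars false

variable {d k : ℕ} [NeZero k] (v : Fin k → Site d) (μ : Measure (Row k)) [IsProbabilityMeasure μ]
  (l : Fin d → ℤ)

/-- Both walks stay above their starts and never meet, the second one started at `z`. -/
def Free (z : Site d) : Set ((ℕ → Fin k) × (ℕ → Fin k)) :=
  {x | x.1 ∈ stay v (lvl l) ∧ x.2 ∈ stay v (lvl l) ∧ ∀ i j, pos v x.1 i ≠ z + pos v x.2 j}

/-- The same up to time `N`. -/
def FreeN (z : Site d) (N : ℕ) : Set ((ℕ → Fin k) × (ℕ → Fin k)) :=
  {x | ∀ i < N, ∀ j < N, 0 ≤ lvl l (pos v x.1 i) ∧ 0 ≤ lvl l (pos v x.2 j) ∧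
    pos v x.1 i ≠ z + pos v x.2 j}

theorem measurableSet_freeN (z : Site d) (N : ℕ) : MeasurableSet (FreeN v l z N) := by
  simp only [FreeN, Set.ofPred_forall]
  refine .iInter fun i => .iInter fun _ => .iInter fun j => .iInter fun _ => ?_
  have h : ∀ n, MeasurableSet {t : ℕ → Fin k | 0 ≤ lvl l (pos v t n)} := fun n =>
    measurableSet_pos_mem v n {y | 0 ≤ lvl l y}
  exact (measurable_fst (h i)).inter ((measurable_snd (h j)).inter
    (measurableSet_eq_fun ((measurable_pos v i).comp measurable_fst)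
      ((measurable_const (a := z)).add ((measurable_pos v j).comp measurable_snd))).compl)

theorem free_eq (z : Site d) : Free v l z = ⋂ N, FreeN v l z N := by
  ext x
  simp only [Free, FreeN, stay, Set.mem_iInter, Set.mem_ofPred_eq]
  exact ⟨fun h N i _ j _ => ⟨h.1 i, h.2.1 j, h.2.2 i j⟩, fun h =>
    ⟨fun i => (h (i + 1) i (by omega) 0 (by omega)).1, fun j => (h (j + 1) 0 (by omega) j (by omega)).2.1,
      fun i j => (h (i + j + 1) i (by omega) j (by omega)).2.2⟩⟩

theorem measurableSet_free (z : Site d) : MeasurableSet (Free v l z) := by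
  rw [free_eq]; exact .iInter (measurableSet_freeN v l z)

/-- Walks which never meet do not see that the environment is shared. -/
theorem pairLaw_free (z : Site d) :
    pairLaw v μ z (Free v l z) = ((law v μ).prod (law v μ)) (Free v l z) := by
  classical
  have hanti : Antitone (FreeN v l z) := fun N N' h x hx i hi j hj =>
    hx i (hi.trans_le h) j (hj.trans_le h)
  have key : ∀ N, pairLaw v μ z (FreeN v l z N) =
      ((law v μ).prod (law v μ)) (FreeN v l z N) := by
    intro N
    set φ : (ℕ → Fin k) × (ℕ → Fin k) → (Fin N → Fin k) × (Fin N → Fin k) :=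
      fun x => (fun i => x.1 i, fun i => x.2 i) with hφ
    have hφm : Measurable φ :=
      ((measurable_pi_lambda _ fun i : Fin N => measurable_pi_apply (i : ℕ)).comp measurable_fst).prodMk
        ((measurable_pi_lambda _ fun i : Fin N => measurable_pi_apply (i : ℕ)).comp measurable_snd)
    have hag : ∀ (t : ℕ → Fin k), ∀ q < N, ext' (fun i : Fin N => t i) q = t q :=
      fun t q hq => by simp [ext', hq]
    set S := univ.filter fun p : (Fin N → Fin k) × (Fin N → Fin k) =>
      (ext' p.1, ext' p.2) ∈ FreeN v l z N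
    have e : FreeN v l z N = φ ⁻¹' S := by
      ext x
      rw [Set.mem_preimage, SetLike.mem_coe, mem_filter]
      simp only [hφ, mem_univ, true_and, FreeN]
      refine forall₂_congr fun i hi => forall₂_congr fun j hj => ?_
      rw [pos_congr v (fun q hq => hag x.1 q (hq.trans hi)) le_rfl,
        pos_congr v (fun q hq => hag x.2 q (hq.trans hj)) le_rfl]
    rw [e, ← sum_measure_preimage_singleton S fun p _ => hφm (measurableSet_singleton p),
      ← sum_measure_preimage_singleton S fun p _ => hφm (measurableSet_singleton p)]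
    refine sum_congr rfl fun p hp => ?_
    have e2 : φ ⁻¹' {p} = {t : ℕ → Fin k | ∀ i < N, t i = ext' p.1 i} ×ˢ
        {t : ℕ → Fin k | ∀ i < N, t i = ext' p.2 i} := by
      ext x
      simp only [hφ, Set.mem_preimage, Set.mem_singleton_iff, Prod.ext_iff, funext_iff,
        Set.mem_prod, Set.mem_ofPred_eq]
      exact ⟨fun h => ⟨fun i hi => by simpa [ext', hi] using h.1 ⟨i, hi⟩,
          fun i hi => by simpa [ext', hi] using h.2 ⟨i, hi⟩⟩,
        fun h => ⟨fun i => by simpa [ext'] using h.1 i i.2,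
          fun i => by simpa [ext'] using h.2 i i.2⟩⟩
    rw [e2, pairLaw_prefix v μ z _ _ N fun i hi j hj =>
      ((mem_filter.1 hp).2 i hi j hj).2.2, Measure.prod_prod]
  rw [free_eq, hanti.measure_iInter (fun N => (measurableSet_freeN v l z N).nullMeasurableSet)
      ⟨0, measure_ne_top _ _⟩,
    hanti.measure_iInter (fun N => (measurableSet_freeN v l z N).nullMeasurableSet)
      ⟨0, measure_ne_top _ _⟩]
  simp only [key]

/-- Two upward concatenations from far apart starts are free with positive probability. -/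
theorem exists_free_pos (hd : 4 ≤ d) (hell : ∀ i, ∀ᵐ p ∂μ, 0 < (p : Row k).1 i)
    (hunit : ∀ j, (∃ i, v i = Pi.single j 1) ∧ ∃ i, v i = Pi.single j (-1))
    (hq : law v μ (StayUp v (lvl l)) ≠ 0)
    (hcard : ∫⁻ t, ((futW v (blk0 v (lvl l) t)).card : ℝ≥0∞) ∂upLaw v μ (lvl l) ≠ ⊤) :
    ∃ M : ℕ, ∀ z : Site d, (∃ i, 2 * (M : ℤ) < |z i|) →
      ((law v μ).prod (law v μ)) (Free v l z) ≠ 0 := by
  classical
  have := isProb_upLaw v μ (lvl l) hq
  set ν := (upLaw v μ (lvl l)).map (blk0 v (lvl l)) with hν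
  have : IsProbabilityMeasure ν :=
    Measure.isProbabilityMeasure_map (meas_blk0 v _).aemeasurable
  have hS : Spread ν (disp v) (futW v) (hi l) := by
    obtain ⟨w, z, hli, hz, hz'⟩ := exists_coins v μ (l := l) hell hunit hq
    refine ⟨exists_level_bound ν (disp v) (hi l) (m := d - 1) (by omega) z hli hz w fun eps => ?_,
      ?_, ?_⟩
    · intro h0
      refine hz' eps (measure_mono_null (fun b hb => ?_) h0)
      show disp v b = _
      rw [show disp v b = _ from hb, sum_filter]
    · have hq' : law v μ (StayUp v (-lvl (-l))) ≠ 0 := by rwa [neg_lvl, neg_neg]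
      have h1 := Semi.ae_heights_injective v μ (-l) hq'
      rw [neg_lvl, neg_neg, ← hν] at h1
      filter_upwards [h1] with c hc q q' he
      exact hc (show hi (-l) _ = hi (-l) _ by simpa [hi] using he)
    · rwa [hν, lintegral_map (f := fun b : Blk k => ((futW v b).card : ℝ≥0∞))
        (measurable_of_countable _) (meas_blk0 v _)]
  obtain ⟨M, hM⟩ := free_avoid ν (disp v) (futW v) (hi l) ν (disp v) (futW v) hS hS
  refine ⟨M, fun z ⟨i0, hi0⟩ h0 => ?_⟩
  refine hM 0 z ∅ ∅ (Set.injOn_empty _) (Set.injOn_empty _) (by simp) (by simp)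
    ⟨i0, by simpa using hi0⟩ ?_
  set Φ : (ℕ → Fin k) → ℕ → Blk k := fun t i => block v (lvl l) i t
  have hΦ : Measurable Φ := measurable_pi_lambda _ fun i => measurable_block v (lvl l) i
  rw [show iid ν = (upLaw v μ (lvl l)).map Φ from (map_block v μ _ hq).symm,
    Measure.map_prod_map _ _ hΦ hΦ]
  set U := (upLaw v μ (lvl l)).prod (upLaw v μ (lvl l))
  set A : Set ((ℕ → Blk k) × (ℕ → Blk k)) := {x |
      (∀ z' ∈ Occ (disp v) (futW v) x.1, (0 : Site d) + z' ∉ (∅ : Set (Site d))) ∧
      (∀ z' ∈ Occ (disp v) (futW v) x.2, z + z' ∉ (∅ : Set (Site d))) ∧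
      ∀ y ∈ Occ (disp v) (futW v) x.1, ∀ y' ∈ Occ (disp v) (futW v) x.2, 0 + y ≠ z + y'}
  have hAm : MeasurableSet A := by
    have e : A = ⋂ (y : Site d) (y' : Site d), ({x | y ∈ Occ (disp v) (futW v) x.1} ∩
        ({x | y' ∈ Occ (disp v) (futW v) x.2} ∩ {_x | 0 + y = z + y'}))ᶜ := by
      ext x
      simp only [A, Set.mem_iInter, Set.mem_compl_iff, Set.mem_inter_iff, Set.mem_ofPred_eq,
        Set.mem_empty_iff_false, not_false_iff, implies_true, true_and, not_and, ne_eq]
      exact ⟨fun h y y' hy hy' => h y hy y' hy', fun h y hy y' hy' => h y y' hy hy'⟩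
    rw [e]
    exact .iInter fun y => .iInter fun y' =>
      ((measurable_fst (Speed.measurableSet_occ _ _ y)).inter
        ((measurable_snd (Speed.measurableSet_occ _ _ y')).inter (.const _))).compl
  rw [Measure.map_apply (hΦ.prodMap hΦ) hAm]
  have hU : U (Free v l z) = 0 := by
    refine Measure.AbsolutelyContinuous.prod ?_ ?_ h0 <;>
      exact Measure.absolutelyContinuous_of_le_smul le_rfl |>.trans
        ((Measure.AbsolutelyContinuous.refl _).trans Measure.restrict_le_self.absolutelyContinuous)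
  refine measure_mono_null_ae ?_ hU
  have hr := regTime_reg v μ (lvl l) hq
  filter_upwards [Measure.quasiMeasurePreserving_fst.ae hr,
    Measure.quasiMeasurePreserving_snd.ae hr] with x h1 h2
  rintro ⟨-, -, hx⟩
  refine ⟨h1.1.1, h2.1.1, fun i j e => ?_⟩
  exact hx _ (pos_mem_futOcc h1 i) _ (pos_mem_futOcc h2 j) (by rw [zero_add]; exact e)

/-- Two walks from one site stay apart with positive probability. -/
theorem sep_pos (hd : 4 ≤ d) (hell : ∀ i, ∀ᵐ p ∂μ, 0 < (p : Row k).1 i)
    (hunit : ∀ j, (∃ i, v i = Pi.single j 1) ∧ ∃ i, v i = Pi.single j (-1))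
    (hq : law v μ (StayUp v (lvl l)) ≠ 0)
    (hcard : ∫⁻ t, ((futW v (blk0 v (lvl l) t)).card : ℝ≥0∞) ∂upLaw v μ (lvl l) ≠ ⊤) :
    ∫⁻ ω, sep v l 0 ω ∂envLaw μ ≠ 0 := by
  classical
  obtain ⟨M, hM⟩ := exists_free_pos v μ l hd hell hunit hq hcard
  have hadd : ∀ a b : Site d, lev l (a + b) = lev l a + lev l b := fun a b => by
    simp [lev, mul_add, sum_add_distrib]
  have hnsmul : ∀ (n : ℕ) (a : Fin d) (c : ℤ), lev l (n • Pi.single a c : Site d) = n * (c * l a) := by
    intro n a c
    rw [lev_eq_hi, hi_nsmul_single]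
  -- the axis, and another one
  obtain ⟨a, ha⟩ := l_ne_zero v μ (l := l) hq
  obtain ⟨j, hja⟩ : ∃ j : Fin d, j ≠ a := by
    have : Nontrivial (Fin d) := Fin.nontrivial_iff_two_le.2 (by omega)
    exact exists_ne a
  obtain ⟨s, ia, hia, hsa, hs1⟩ : ∃ (s : ℤ) (i : Fin k),
      v i = Pi.single a s ∧ 0 < s * l a ∧ s ≠ 0 := by
    rcases lt_or_gt_of_ne ha with h | h
    · obtain ⟨-, i, hi⟩ := hunit a; exact ⟨-1, i, hi, by linarith, by omega⟩
    · obtain ⟨⟨i, hi⟩, -⟩ := hunit a; exact ⟨1, i, hi, by linarith, by omega⟩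
  obtain ⟨r, ir, hir, hrj, hr⟩ : ∃ (r : ℤ) (i : Fin k),
      v i = Pi.single j r ∧ 0 ≤ r * l j ∧ (r = 1 ∨ r = -1) := by
    rcases le_total 0 (l j) with h | h
    · obtain ⟨⟨i, hi⟩, -⟩ := hunit j; exact ⟨1, i, hi, by linarith, Or.inl rfl⟩
    · obtain ⟨-, i, hi⟩ := hunit j; exact ⟨-1, i, hi, by linarith, Or.inr rfl⟩
  -- equal final levels
  set L := (s * l a).toNat * (2 * M + 1)
  set na := (2 * M + 1) * (r * l j).toNat + 1
  have hL : 2 * M + 1 ≤ L := Nat.le_mul_of_pos_left _ (by omega)
  have hlevel : (na : ℤ) * (s * l a) = L * (r * l j) + s * l a := by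
    have e1 : ((s * l a).toNat : ℤ) = s * l a := Int.toNat_of_nonneg hsa.le
    have e2 : ((r * l j).toNat : ℤ) = r * l j := Int.toNat_of_nonneg hrj
    simp only [L, na]
    push_cast [e1, e2]
    ring
  set wa : ℕ → Fin k := fun _ => ia
  set wb : ℕ → Fin k := fun i => if i < L then ir else ia
  have hpa : ∀ n, pos v wa n = n • Pi.single a s := fun n => by simp [pos, wa, hia]
  have hpb : ∀ n ≤ L, pos v wb n = n • Pi.single j r := fun n hn => by
    simp only [pos]
    rw [sum_congr rfl fun i hi => show v (wb i) = Pi.single j r by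
      simp [wb, (mem_range.1 hi).trans_le hn, hir], sum_const, card_range]
  set P := pos v wa na
  set Q := pos v wb (L + 1)
  have hQ : Q = L • Pi.single j r + Pi.single a s := by
    simp only [Q, pos, sum_range_succ]
    rw [show (∑ i ∈ range L, v (wb i)) = _ from hpb L le_rfl]
    simp [wb, hia]
  have hlevPQ : lev l Q = lev l P := by
    rw [hQ, hadd, show P = _ from hpa na, hnsmul, hnsmul]
    have := hnsmul 1 a s
    rw [one_smul] at this
    rw [this]
    push_cast
    linarith
  have hha : ∀ i < na, 0 ≤ lev l (pos v wa i) ∧ lev l (pos v wa i) < lev l P := fun i hi => by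
    rw [show P = _ from hpa na, hpa, hnsmul, hnsmul]
    exact ⟨by positivity, mul_lt_mul_of_pos_right (by exact_mod_cast hi) hsa⟩
  have hhb : ∀ i < L + 1, 0 ≤ lev l (pos v wb i) ∧ lev l (pos v wb i) < lev l P := fun i hi => by
    rw [hpb i (by omega), hnsmul, show P = _ from hpa na, hnsmul, hlevel]
    refine ⟨by positivity, ?_⟩
    have h1 : (i : ℤ) * (r * l j) ≤ L * (r * l j) :=
      mul_le_mul_of_nonneg_right (by exact_mod_cast Nat.lt_succ_iff.1 hi) hrj
    linarith
  have hz : ((law v μ).prod (law v μ)) (Free v l (Q - P)) ≠ 0 := by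
    refine hM _ ⟨j, ?_⟩
    rw [hQ, show P = _ from hpa na]
    have h1 : (2 * M + 1 : ℤ) ≤ L := by exact_mod_cast hL
    have h2 : (L • Pi.single j r + Pi.single a s - na • Pi.single a s : Site d) j = L * r := by
      simp [Pi.single_eq_of_ne hja]
    rw [h2]
    rcases hr with rfl | rfl <;> simp <;> linarith
  -- environments in which the two ends are free, seen from `P`
  rw [← pairLaw_free v μ l, pairLaw_apply v μ _ (measurableSet_free v l _)] at hz
  intro h0
  refine hz ?_
  rw [← show (envLaw (d := d) μ).map (seen P) = envLaw μ from map_shift_env μ P,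
    lintegral_map (measurable_qPair v _ (measurableSet_free v l _)) (measurable_seen P)]
  have hsep : Measurable (sep v l (0 : Site d)) := by
    rw [show sep v l (0 : Site d) = fun ω => ((qLaw v ω).prod (qLaw v (seen 0 ω))) (Apart v l) from
      funext fun ω => by simp only [sep, seen_zero]]
    exact measurable_qPair v (0 : Site d) (measurableSet_apart v l)
  refine (lintegral_congr_ae ?_).trans lintegral_zero
  filter_upwards [ae_full μ hell, (lintegral_eq_zero_iff hsep).1 h0] with ω hω h0
  simp only [Pi.zero_apply, sep, seen_zero] at h0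
  rw [seen_seen, add_sub_cancel]
  by_contra hne
  set Ea : Set (ℕ → Fin k) := {t | ∀ q < na, t q = wa q}
  set Eb : Set (ℕ → Fin k) := {t | ∀ q < L + 1, t q = wb q}
  have hsh : ∀ n, Measurable (shift (k := k) n) := fun n =>
    measurable_pi_lambda _ fun i => measurable_pi_apply (n + i)
  have hmap : ∀ (n : ℕ) (w : ℕ → Fin k),
      ((qLaw v ω).restrict {t | ∀ q < n, t q = w q}).map (shift n) =
        qLaw v ω {t | ∀ q < n, t q = w q} • qLaw v (seen (pos v w n) ω) := by
    intro n w
    refine Measure.ext fun B hB => ?_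
    rw [Measure.map_apply (hsh n) hB, Measure.restrict_apply' (measurableSet_prefix w n),
      Set.inter_comm, Measure.smul_apply, smul_eq_mul]
    exact qLaw_markov v ω n (fun t t' e (ht : ∀ q < n, t q = w q) q hq => (e q hq).symm.trans (ht q hq))
      (fun t (ht : ∀ q < n, t q = w q) => pos_congr v ht le_rfl) hB
  have hpos : ∀ (n : ℕ) (w : ℕ → Fin k), qLaw v ω {t | ∀ q < n, t q = w q} ≠ 0 := fun n w => by
    rw [qLaw_prefix, ← seen_zero ω]; exact weight_ne_zero v hω 0 w n
  set T : (ℕ → Fin k) × (ℕ → Fin k) → (ℕ → Fin k) × (ℕ → Fin k) :=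
    Prod.map (shift na) (shift (L + 1))
  have hT : Measurable T := (hsh na).prodMap (hsh (L + 1))
  have hsub : (Ea ×ˢ Eb) ∩ T ⁻¹' Free v l (Q - P) ⊆ Apart v l := by
    rintro ⟨t, u⟩ ⟨⟨ht, hu⟩, f1, f2, f3⟩
    have hta : ∀ i ≤ na, pos v t i = pos v wa i := fun i hi => pos_congr v ht hi
    have hub : ∀ i ≤ L + 1, pos v u i = pos v wb i := fun i hi => pos_congr v hu hi
    have hlate : ∀ (t : ℕ → Fin k) n, shift n t ∈ stay v (lvl l) → ∀ i, n ≤ i →
        lev l (pos v t n) ≤ lev l (pos v t i) := by
      intro t n hst i hi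
      obtain ⟨c, rfl⟩ := Nat.exists_eq_add_of_le hi
      rw [shift_pos, hadd]
      have h1 := hst c
      rw [lvl_eq] at h1
      have h2 : (0 : ℤ) ≤ lev l (pos v (shift n t) c) := by exact_mod_cast h1
      linarith
    have hta' : ∀ i, na ≤ i → lev l P ≤ lev l (pos v t i) := fun i hi =>
      (hlate t na f1 i hi).trans' (by rw [hta na le_rfl])
    have hub' : ∀ i, L + 1 ≤ i → lev l P ≤ lev l (pos v u i) := fun i hi =>
      (hlate u (L + 1) f2 i hi).trans' (by rw [hub _ le_rfl]; exact hlevPQ.ge)
    have hP0 : 0 ≤ lev l P := by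
      have := hha 0 (Nat.succ_pos _)
      linarith
    refine ⟨fun i => ?_, fun i => ?_, fun i q hi hq e => ?_⟩
    · rw [lvl_eq]
      rcases lt_or_ge i na with h | h
      · rw [hta i h.le]; exact_mod_cast (hha i h).1
      · exact_mod_cast hP0.trans (hta' i h)
    · rw [lvl_eq]
      rcases lt_or_ge i (L + 1) with h | h
      · rw [hub i h.le]; exact_mod_cast (hhb i h).1
      · exact_mod_cast hP0.trans (hub' i h)
    rcases lt_or_ge i na with h | h <;> rcases lt_or_ge q (L + 1) with h' | h'
    · rw [show pos v (t, u).1 i = pos v t i from rfl, show pos v (t, u).2 q = pos v u q from rfl,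
        hta i h.le, hub q h'.le, hpa, hpb q (by omega)] at e
      have := congrFun e j
      simp [Pi.single_eq_of_ne hja] at this
      rcases hr with rfl | rfl <;> omega
    · have h1 := (hha i h).2
      rw [← hta i h.le, show pos v t i = pos v u q from e] at h1
      exact (hub' q h').not_gt h1
    · have h1 := (hhb q h').2
      rw [← hub q h'.le, ← show pos v t i = pos v u q from e] at h1
      exact (hta' i h).not_gt h1
    · obtain ⟨c, rfl⟩ := Nat.exists_eq_add_of_le h
      obtain ⟨c', rfl⟩ := Nat.exists_eq_add_of_le h'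
      refine f3 c c' ?_
      have e' : pos v t (na + c) = pos v u (L + 1 + c') := e
      rw [shift_pos v t na c, shift_pos v u (L + 1) c', hta na le_rfl, hub _ le_rfl] at e'
      show pos v (shift na t) c = Q - P + pos v (shift (L + 1) u) c'
      rw [sub_add_eq_add_sub, eq_sub_iff_add_eq', ← e']
  refine mul_ne_zero (mul_ne_zero (hpos na wa) (hpos (L + 1) wb)) hne ?_
  refine le_antisymm (le_trans ?_ ((measure_mono hsub).trans h0.le)) zero_le
  rw [Set.inter_comm, ← Measure.restrict_apply (hT (measurableSet_free v l _)),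
    ← Measure.map_apply hT (measurableSet_free v l _), ← Measure.prod_restrict,
    ← Measure.map_prod_map _ _ (hsh _) (hsh _), hmap, hmap, Measure.prod_smul_left,
    Measure.prod_smul_right]
  simp only [Measure.smul_apply, smul_eq_mul]
  exact le_of_eq (mul_assoc _ _ _)

end Vale.Agent.P147.Rec
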