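import Vale.Agent.P147.Rec.Range
import Vale.Agent.P147.Rec.Sep
import Vale.Agent.P147.Semi.Main
import Vale.Agent.P147.Semi.Reduce

/-!
P147: in dimension at least four an escape whose regeneration blocks visit finitely many sites in
the mean excludes the opposite escape. The records of walks from everywhere have a flux with
bounded second moment, so they cannot avoid the environments in which falling for ever is likely.
-/

open MeasureTheory Filter Finset
open scoped ENNReal Topology

namespace Vale.Agent.P147.Rec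

open Vale.Agent.P147.Cond Vale.Agent.P147.Dir Vale.Agent.P147.Dir.Blocks Vale.Agent.P147.Glue
open Vale.Agent.P147.Speed
open Vale.Agent.P147.Semi (lvl lev lvl_eq Alive dead_le exists_height_bound le_of_mul_le neg_lvl
  measurableSet_alive NoRange velocity_forces)

set_option linter.unusedSectionVars false

variable {d k : ℕ} [NeZero k] (v : Fin k → Site d) (μ : Measure (Row k)) [IsProbabilityMeasure μ]
  (l : Fin d → ℤ) (η : ℝ≥0∞) (h : ℕ) (F : Finset (Site d))

/-- The flux of records into the origin from the starts in `-F`. -/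
noncomputable def influx (ω : Site d → Row k) : ℝ≥0∞ := ∑ x ∈ F, flux v μ l η h (-x) 0 ω

theorem measurable_influx : Measurable (influx v μ l η h F) :=
  Finset.measurable_sum _ fun _ _ => measurable_flux v μ l η h _ _

theorem measurable_fall (y : Site d) : Measurable (fall v l y) :=
  (measurable_qLaw v (meas_StayUp v _)).comp (measurable_seen y)

theorem measurable_sep (y : Site d) : Measurable (sep v l y) := by
  have e : sep v l y = (fun ω : Site d → Row k =>
      ((qLaw v ω).prod (qLaw v (seen 0 ω))) (Apart v l)) ∘ seen y :=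
    funext fun ω => by simp only [Function.comp, sep, seen_zero]
  rw [e]
  exact (Semi.measurable_qPair v 0 (measurableSet_apart v l)).comp (measurable_seen y)

/-- Integrals are invariant under a shift of the environment. -/
theorem lintegral_seen {f : (Site d → Row k) → ℝ≥0∞} (hf : Measurable f) (a : Site d) :
    ∫⁻ ω, f (seen a ω) ∂envLaw μ = ∫⁻ ω, f ω ∂envLaw μ := by
  rw [← lintegral_map hf (measurable_seen a),
    show (envLaw (d := d) μ).map (seen a) = envLaw μ from map_shift_env μ a]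

theorem lintegral_influx_fall_le :
    ∫⁻ ω, influx v μ l η h F ω * fall v l 0 ω ∂envLaw μ ≤ 1 := by
  simp only [influx, sum_mul]
  have hm : ∀ x, Measurable fun ω : Site d → Row k =>
      flux v μ l η h (-x) 0 ω * fall v l 0 ω := fun x =>
    (measurable_flux v μ l η h _ _).mul (measurable_fall v l 0)
  have hm' : ∀ x, Measurable fun ω : Site d → Row k =>
      flux v μ l η h 0 x ω * fall v l x ω := fun x =>
    (measurable_flux v μ l η h _ _).mul (measurable_fall v l x)
  rw [lintegral_finsetSum' _ fun x _ => (hm x).aemeasurable]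
  calc ∑ x ∈ F, ∫⁻ ω, flux v μ l η h (-x) 0 ω * fall v l 0 ω ∂envLaw μ
      = ∑ x ∈ F, ∫⁻ ω, flux v μ l η h 0 x ω * fall v l x ω ∂envLaw μ := by
        refine sum_congr rfl fun x _ => ?_
        rw [← lintegral_seen μ (hm x) x]
        refine lintegral_congr fun ω => ?_
        simp only [flux_seen, fall, seen_seen, add_neg_cancel, add_zero]
    _ = ∫⁻ ω, ∑ x ∈ F, flux v μ l η h 0 x ω * fall v l x ω ∂envLaw μ :=
        (lintegral_finsetSum' _ fun x _ => (hm' x).aemeasurable).symm
    _ ≤ ∫⁻ _, 1 ∂envLaw μ := lintegral_mono fun ω => sum_flux_fall_le v μ l η h 0 F ω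
    _ = 1 := by simp

theorem lintegral_sq_le :
    (∫⁻ ω, influx v μ l η h F ω * influx v μ l η h F ω ∂envLaw μ) *
        ∫⁻ ω, sep v l 0 ω ∂envLaw μ ≤
      (∫⁻ s, size v μ l η h s ∂law v μ) * ∫⁻ s, size v μ l η h s ∂law v μ := by
  classical
  set U := (F ×ˢ F).image fun p => p.1 - p.2
  set W := influx v μ l η h F
  have hW : Measurable W := measurable_influx v μ l η h F
  have hWW : Measurable fun ω => W ω * W ω := hW.mul hW
  have hWS : Measurable fun ω => W ω * W ω * sep v l 0 ω := hWW.mul (measurable_sep v l 0)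
  -- independence
  have hprod : ∫⁻ ω, W ω * W ω * sep v l 0 ω ∂envLaw μ =
      (∫⁻ ω, W ω * W ω ∂envLaw μ) * ∫⁻ ω, sep v l 0 ω ∂envLaw μ := by
    set Lo : Set (Site d) := {x | lev l x < 0}
    have hz : lev l (0 : Site d) = 0 := by simp [lev]
    conv_lhs => rw [← map_comb μ Lo]
    rw [lintegral_map hWS (measurable_comb Lo)]
    have e : ∀ a, W (Cond.comb Lo a) * W (Cond.comb Lo a) * sep v l 0 (Cond.comb Lo a) =
        W a.1 * W a.1 * sep v l 0 a.2 := fun a => by
      have e1 : W (Cond.comb Lo a) = W a.1 := sum_congr rfl fun x _ =>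
        flux_congr v μ l η h _ _ fun y hy => by
          rw [Cond.comb, if_pos (show y ∈ Lo by simpa [Lo, hz] using hy)]
      have e2 : sep v l 0 (Cond.comb Lo a) = sep v l 0 a.2 := sep_congr v l 0 fun y hy => by
        rw [Cond.comb, if_neg (show y ∉ Lo by simpa [Lo, hz] using hy)]
      rw [e1, e2]
    simp only [e]
    exact lintegral_prod_mul hWW.aemeasurable (measurable_sep v l 0).aemeasurable
  have hm : ∀ u x, Measurable fun ω : Site d → Row k =>
      flux v μ l η h 0 x ω * flux v μ l η h u x ω * sep v l x ω := fun u x =>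
    ((measurable_flux v μ l η h _ _).mul (measurable_flux v μ l η h _ _)).mul (measurable_sep v l x)
  have hm0 : ∀ x x', Measurable fun ω : Site d → Row k =>
      flux v μ l η h (-x) 0 ω * flux v μ l η h (-x') 0 ω * sep v l 0 ω := fun x x' =>
    ((measurable_flux v μ l η h _ _).mul (measurable_flux v μ l η h _ _)).mul (measurable_sep v l 0)
  rw [← hprod]
  calc ∫⁻ ω, W ω * W ω * sep v l 0 ω ∂envLaw μ
      = ∑ x ∈ F, ∑ x' ∈ F, ∫⁻ ω, flux v μ l η h 0 x ω * flux v μ l η h (x - x') x ω *
          sep v l x ω ∂envLaw μ := by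
        simp only [W, influx, sum_mul, mul_sum]
        rw [lintegral_finsetSum' _ fun x _ =>
          (Finset.measurable_sum _ fun x' _ => hm0 x' x).aemeasurable, sum_comm]
        refine sum_congr rfl fun x' _ => ?_
        rw [lintegral_finsetSum' _ fun x _ => (hm0 x x').aemeasurable]
        refine sum_congr rfl fun x _ => ?_
        rw [← lintegral_seen μ (hm0 x x') x]
        refine lintegral_congr fun ω => ?_
        simp only [flux_seen, sep, seen_seen, add_neg_cancel, add_zero, ← sub_eq_add_neg]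
    _ ≤ ∑ x ∈ F, ∑ u ∈ U, ∫⁻ ω, flux v μ l η h 0 x ω * flux v μ l η h u x ω *
          sep v l x ω ∂envLaw μ := by
        refine sum_le_sum fun x hx => ?_
        rw [← sum_image (f := fun u => ∫⁻ ω, flux v μ l η h 0 x ω * flux v μ l η h u x ω *
          sep v l x ω ∂envLaw μ) (g := fun x' => x - x') fun a _ b _ e => sub_right_injective e]
        exact sum_le_sum_of_subset fun u hu => by
          obtain ⟨x', hx', rfl⟩ := mem_image.1 hu
          exact mem_image.2 ⟨(x, x'), mem_product.2 ⟨hx, hx'⟩, rfl⟩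
    _ = ∑ u ∈ U, ∫⁻ ω, ∑ x ∈ F, flux v μ l η h 0 x ω * flux v μ l η h u x ω *
          sep v l x ω ∂envLaw μ := by
        rw [sum_comm]
        exact sum_congr rfl fun u _ =>
          (lintegral_finsetSum' _ fun x _ => (hm u x).aemeasurable).symm
    _ ≤ ∑ u ∈ U, pairLaw v μ u (Meets v (Good v μ l η h) u) := by
        refine sum_le_sum fun u _ => ?_
        rw [pairLaw_apply v μ u (measurableSet_meets v (Good v μ l η h)
          (fun hs => good_congr v μ l η h hs) u)]
        refine lintegral_mono fun ω => (sum_flux_sep_le v μ l η h 0 u F ω).trans_eq ?_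
        rw [seen_zero, sub_zero]
    _ ≤ ∑ u ∈ U, ((law v μ).prod (law v μ)) (Meets v (Good v μ l η h) u) :=
        sum_le_sum fun u _ => pairLaw_meets v μ (Good v μ l η h) (fun hs => good_congr v μ l η h hs)
          (fun hm _ hs => good_mono v μ l η h hm hs) u
    _ ≤ _ := sum_meets_le v μ l η h U

/-- Enough finitely many shifts catch many records. -/
theorem exists_influx_ge (hq : law v μ (StayUp v (lvl l)) ≠ 0) :
    ∃ A : ℕ, ∀ m : ℕ, 0 < m → ∃ F : Finset (Site d),
      (m : ℝ≥0∞) * (law v μ (StayUp v (lvl l)) / 4) ≤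
        ∫⁻ ω, influx v μ l (law v μ (StayUp v (lvl l)) / 8) (A * m) F ω ∂envLaw μ := by
  classical
  have := isProb_upLaw v μ (lvl l) hq
  obtain ⟨H, hH, hHm⟩ := exists_height_bound v μ l hq
  obtain ⟨A, hA⟩ := ENNReal.exists_nat_gt (ENNReal.mul_ne_top (by norm_num : (2 : ℝ≥0∞) ≠ ∞) hH)
  have hA0 : A ≠ 0 := fun h => by simp [h] at hA
  refine ⟨A, fun m hm => ?_⟩
  set q := law v μ (StayUp v (lvl l)) with hqd
  have hqt : q ≠ ∞ := measure_ne_top _ _
  set η := q / 8 with hη
  have hη0 : 0 < η := pos_iff_ne_zero.2 (by simp [hη, hq])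
  set R := regTime v (lvl l)
  have hpm : Measurable fun x : (ℕ → Fin k) × ℕ => pos v x.1 x.2 :=
    measurable_from_prod_countable_left fun j => measurable_pos v j
  have hy : ∀ i, Measurable fun t : ℕ → Fin k => pos v t (R i t) := fun i =>
    hpm.comp (measurable_id.prodMk (meas_regTime v (lvl l) i))
  set G : Set (ℕ → Fin k) := {t | lev l (pos v t (R m t)) < ((A * m : ℕ) : ℤ)}
  have hGm : MeasurableSet G := (hy m) (Set.to_countable {z : Site d | lev l z < _}).measurableSet
  have hGc : upLaw v μ (lvl l) Gᶜ ≤ 1 / 2 := by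
    have e : Gᶜ = {t | ((A * m : ℕ) : ℤ) ≤ lev l (pos v t (regTime v (lvl l) m t))} := by
      ext t; simp [G, R]
    rw [e]
    refine le_of_mul_le (c := ((A * m : ℕ) : ℝ≥0∞)) ?_ (ENNReal.natCast_ne_top _)
      ((hHm A m).trans ?_)
    · exact_mod_cast Nat.mul_ne_zero hA0 hm.ne'
    · push_cast
      rw [← mul_assoc]
      refine mul_le_mul' ?_ le_rfl
      rw [one_div, ← mul_one H, ← ENNReal.inv_mul_cancel (a := 2) (by norm_num) (by norm_num),
        mul_left_comm, mul_comm H]
      exact mul_le_mul' le_rfl hA.le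
  have hhalf : q / 2 ≤ law v μ (StayUp v (lvl l) ∩ G) := by
    have h1 := prob_add_prob_compl (μ := upLaw v μ (lvl l)) hGm
    have h2 : (1 : ℝ≥0∞) / 2 ≤ upLaw v μ (lvl l) G := by
      refine ENNReal.le_of_add_le_add_right (a := 1 / 2) (by norm_num) ?_
      rw [ENNReal.add_halves]
      exact h1.symm.le.trans (add_le_add le_rfl hGc)
    rw [upLaw_apply v μ _ hGm] at h2
    calc q / 2 = q * (1 / 2) := by rw [one_div, div_eq_mul_inv]
      _ ≤ q * (q⁻¹ * law v μ (StayUp v (lvl l) ∩ G)) := mul_le_mul' le_rfl h2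
      _ = _ := by rw [← mul_assoc, ENNReal.mul_inv_cancel hq hqt, one_mul]
  -- finitely many sites carry the first `m` regeneration sites
  let box : ℕ → Finset (Site d) := fun n =>
    Fintype.piFinset fun _ => Finset.Icc (-(n : ℤ)) n
  set Bad : ℕ → Set (ℕ → Fin k) := fun n => ⋃ i ∈ range m, {t | pos v t (R i t) ∉ box n}
  have hbadm : ∀ n, MeasurableSet (Bad n) := fun n =>
    .biUnion (Set.to_countable _) fun i _ =>
      (hy i) (Set.to_countable {z : Site d | z ∉ box n}).measurableSet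
  obtain ⟨n, hn⟩ : ∃ n, law v μ (Bad n) ≤ η := by
    have hanti : Antitone Bad := fun a b hab => Set.iUnion₂_mono fun i _ t ht hc => ht (by
      simp only [box, Fintype.mem_piFinset, Finset.mem_Icc] at hc ⊢
      intro j
      have := hc j
      omega)
    have hempty : ⋂ n, Bad n = ∅ := by
      refine Set.eq_empty_iff_forall_notMem.2 fun t ht => ?_
      set N := ((range m) ×ˢ (univ : Finset (Fin d))).sup fun p => (pos v t (R p.1 t) p.2).natAbs
      obtain ⟨i, hi, hbad⟩ := Set.mem_iUnion₂.1 (Set.mem_iInter.1 ht N)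
      refine hbad ?_
      simp only [box, Fintype.mem_piFinset, Finset.mem_Icc]
      intro j
      have : (pos v t (R i t) j).natAbs ≤ N :=
        le_sup (f := fun p : ℕ × Fin d => (pos v t (R p.1 t) p.2).natAbs) (b := (i, j))
          (mem_product.2 ⟨hi, mem_univ _⟩)
      omega
    have h1 := tendsto_measure_iInter_atTop (μ := law v μ)
      (fun n => (hbadm n).nullMeasurableSet) hanti ⟨0, measure_ne_top _ _⟩
    rw [hempty, measure_empty] at h1
    exact (h1.eventually_le_const hη0).exists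
  refine ⟨box n, ?_⟩
  set Ev : Set (ℕ → Fin k) := {t | Regular v (lvl l) t} ∩ G ∩
    {t | ∀ i, Alive v μ (lvl l) η i t} ∩ (Bad n)ᶜ with hEv
  have hsum : ∀ t ∈ Ev, (m : ℝ≥0∞) ≤ ∑ x ∈ box n,
      (⋃ j, RecAt v μ l η (A * m) x j).indicator (1 : (ℕ → Fin k) → ℝ≥0∞) t := by
    rintro t ⟨⟨⟨hr, hG⟩, hal⟩, hb⟩
    have hin : ∀ i ∈ range m, pos v t (R i t) ∈ box n := fun i hi => by
      by_contra hc
      exact hb (Set.mem_iUnion₂.2 ⟨i, hi, hc⟩)
    have hlt : ∀ i j, i < j → lev l (pos v t (R i t)) < lev l (pos v t (R j t)) := fun i j hij => by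
      have := (hr.2 j).2.2.1 _ (hr.strictMono hij)
      rw [lvl_eq, lvl_eq] at this
      exact_mod_cast this
    have hrec : ∀ i ∈ range m, t ∈ RecAt v μ l η (A * m) (pos v t (R i t)) (R i t) := fun i hi => by
      refine ⟨⟨hal _, fun r hri => ?_⟩, (hr.2 i).2.2.1, rfl⟩
      refine lt_of_le_of_lt ?_ ((hlt i m (mem_range.1 hi)).trans hG)
      rcases hri.lt_or_eq with h | rfl
      · have := (hr.2 i).2.2.1 r h
        rw [lvl_eq, lvl_eq] at this
        exact_mod_cast this.le
      · exact le_rfl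
    calc (m : ℝ≥0∞) = ∑ x ∈ (range m).image fun i => pos v t (R i t), (1 : ℝ≥0∞) := by
          rw [sum_const, nsmul_one, card_image_of_injOn fun i _ j _ e => ?_, card_range]
          rcases lt_trichotomy i j with h | h | h
          · exact absurd (hlt i j h) (by simp [show pos v t (R i t) = pos v t (R j t) from e])
          · exact h
          · exact absurd (hlt j i h) (by simp [show pos v t (R i t) = pos v t (R j t) from e])
      _ ≤ ∑ x ∈ (range m).image fun i => pos v t (R i t),
            (⋃ j, RecAt v μ l η (A * m) x j).indicator (1 : (ℕ → Fin k) → ℝ≥0∞) t := by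
          refine sum_le_sum fun x hx => ?_
          obtain ⟨i, hi, rfl⟩ := mem_image.1 hx
          rw [Set.indicator_of_mem (Set.mem_iUnion.2 ⟨_, hrec i hi⟩)]
          exact le_rfl
      _ ≤ _ := sum_le_sum_of_subset fun x hx => by
          obtain ⟨i, hi, rfl⟩ := mem_image.1 hx
          exact hin i hi
  have hEvlow : q / 4 ≤ law v μ Ev := by
    refine ENNReal.le_of_add_le_add_right (a := η + η) (by simp [hη, ENNReal.div_eq_top, hqt]) ?_
    have hreg : law v μ (StayUp v (lvl l) \ {t | Regular v (lvl l) t}) = 0 := by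
      have h1 : upLaw v μ (lvl l) {t | ¬ Regular v (lvl l) t} = 0 := regTime_reg v μ (lvl l) hq
      rw [upLaw, Measure.smul_apply, smul_eq_mul, mul_eq_zero,
        Measure.restrict_apply' (meas_StayUp v _), ENNReal.inv_eq_zero] at h1
      refine measure_mono_null ?_ (h1.resolve_left hqt)
      rintro t ⟨ht1, ht2⟩
      exact ⟨ht2, ht1⟩
    calc q / 4 + (η + η) = q / 2 := by
          rw [hη, ← ENNReal.toReal_eq_toReal_iff' (by simp [ENNReal.div_eq_top, hqt])
            (by simp [ENNReal.div_eq_top, hqt]), ENNReal.toReal_add, ENNReal.toReal_add] <;>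
            simp [ENNReal.div_eq_top, hqt]
          ring
      _ ≤ law v μ (StayUp v (lvl l) ∩ G) := hhalf
      _ ≤ law v μ (Ev ∪ ((StayUp v (lvl l) ∩ {t | ∃ i, ¬ Alive v μ (lvl l) η i t}) ∪ Bad n ∪
            (StayUp v (lvl l) \ {t | Regular v (lvl l) t}))) := measure_mono fun t ht => by
          by_cases h1 : Regular v (lvl l) t
          · by_cases h2 : ∀ i, Alive v μ (lvl l) η i t
            · by_cases h3 : t ∈ Bad n
              · exact Or.inr (Or.inl (Or.inr h3))
              · exact Or.inl ⟨⟨⟨h1, ht.2⟩, h2⟩, h3⟩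
            · exact Or.inr (Or.inl (Or.inl ⟨ht.1, not_forall.1 h2⟩))
          · exact Or.inr (Or.inr ⟨ht.1, h1⟩)
      _ ≤ law v μ Ev + (η + η + 0) := (measure_union_le _ _).trans (add_le_add le_rfl
          ((measure_union_le _ _).trans (add_le_add
            ((measure_union_le _ _).trans (add_le_add (dead_le v μ _ η) hn)) hreg.le)))
      _ = _ := by rw [add_zero]
  have hRm : ∀ x, MeasurableSet (⋃ j, RecAt v μ l η (A * m) x j) := fun x =>
    .iUnion fun j => measurableSet_recAt v μ l η (A * m) x j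
  calc (m : ℝ≥0∞) * (q / 4) ≤ m * law v μ Ev := mul_le_mul' le_rfl hEvlow
    _ ≤ m * law v μ {t | (m : ℝ≥0∞) ≤ ∑ x ∈ box n,
          (⋃ j, RecAt v μ l η (A * m) x j).indicator (1 : (ℕ → Fin k) → ℝ≥0∞) t} :=
        mul_le_mul' le_rfl (measure_mono hsum)
    _ ≤ ∫⁻ t, ∑ x ∈ box n,
          (⋃ j, RecAt v μ l η (A * m) x j).indicator (1 : (ℕ → Fin k) → ℝ≥0∞) t ∂law v μ :=
        mul_meas_ge_le_lintegral
          (Finset.measurable_sum _ fun x _ => measurable_one.indicator (hRm x)) _
    _ = ∑ x ∈ box n, ∫⁻ ω, flux v μ l η (A * m) (-x) 0 ω ∂envLaw μ := by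
        rw [lintegral_finsetSum' _ fun x _ => (measurable_one.indicator (hRm x)).aemeasurable]
        refine sum_congr rfl fun x _ => ?_
        rw [lintegral_indicator_one (hRm x), lintegral_flux, sub_neg_eq_add, zero_add]
    _ = _ := (lintegral_finsetSum' _ fun x _ =>
        (measurable_flux v μ l η _ _ _).aemeasurable).symm

/-- A thin escape side excludes the opposite escape. -/
theorem core (hd : 4 ≤ d) (hell : ∀ i, ∀ᵐ p ∂μ, 0 < (p : Row k).1 i)
    (hunit : ∀ j, (∃ i, v i = Pi.single j 1) ∧ ∃ i, v i = Pi.single j (-1))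
    (hq : law v μ (StayUp v (lvl l)) ≠ 0) (hfall : law v μ (StayUp v (-lvl l)) ≠ 0)
    (hcard : ∫⁻ t, ((futW v (blk0 v (lvl l) t)).card : ℝ≥0∞) ∂upLaw v μ (lvl l) ≠ ⊤) :
    False := by
  classical
  obtain ⟨C, hC, hCh⟩ := exists_size_bound v μ l hq hcard
  obtain ⟨A, hA⟩ := exists_influx_ge v μ l hq
  set q := law v μ (StayUp v (lvl l)) with hqd
  set η := q / 8 with hη
  have hqt : q ≠ ∞ := measure_ne_top _ _
  have hη0 : η ≠ 0 := by simp [hη, hq]
  have hηt : η ≠ ∞ := by simp [hη, ENNReal.div_eq_top, hqt]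
  set c := ∫⁻ ω, sep v l 0 ω ∂envLaw μ with hcd
  have hc : c ≠ 0 := sep_pos v μ l hd hell hunit hq hcard
  set K := (η⁻¹ * (C * A)) * (η⁻¹ * (C * A)) * c⁻¹
  have hK : K ≠ ∞ := by
    have h1 : η⁻¹ * (C * A) ≠ ∞ := ENNReal.mul_ne_top (ENNReal.inv_ne_top.2 hη0)
      (ENNReal.mul_ne_top hC (ENNReal.natCast_ne_top _))
    exact ENNReal.mul_ne_top (ENNReal.mul_ne_top h1 h1) (ENNReal.inv_ne_top.2 hc)
  set q16 := q / 16 with hq16d
  have hq16 : q16 ≠ 0 := by simp [hq16d, hq]
  have hq16t : q16 ≠ ∞ := by simp [hq16d, ENNReal.div_eq_top, hqt]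
  obtain ⟨lam, hlam⟩ := ENNReal.exists_nat_gt (ENNReal.div_ne_top hK hq16)
  have hlam0 : (lam : ℝ≥0∞) ≠ 0 := (lt_of_le_of_lt zero_le hlam).ne'
  set f := fall (k := k) v l (0 : Site d)
  have hf : Measurable f := measurable_fall v l 0
  -- small chances to fall are rare
  obtain ⟨e, he⟩ : ∃ e : ℕ, (lam : ℝ≥0∞) * envLaw μ {ω | f ω < (e + 1 : ℝ≥0∞)⁻¹} ≤ q16 := by
    have hanti : Antitone fun e : ℕ => {ω : Site d → Row k | f ω < (e + 1 : ℝ≥0∞)⁻¹} :=
      fun a b hab ω hω => lt_of_lt_of_le hω (ENNReal.inv_le_inv.2 (by gcongr))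
    have h1 := tendsto_measure_iInter_atTop (μ := envLaw μ)
      (fun e => (measurableSet_lt hf measurable_const).nullMeasurableSet) hanti
      ⟨0, measure_ne_top _ _⟩
    have h0 : envLaw μ (⋂ e : ℕ, {ω : Site d → Row k | f ω < (e + 1 : ℝ≥0∞)⁻¹}) = 0 := by
      refine measure_mono_null (t := {ω : Site d → Row k | ¬ f ω ≠ 0}) (fun ω hω => ?_)
        (ae_fall_pos v μ l hell hunit (l_ne_zero v μ (l := l) hq) hfall)
      intro h
      obtain ⟨n, hn⟩ := ENNReal.exists_inv_nat_lt h
      have h2 : f ω < (n + 1 : ℝ≥0∞)⁻¹ := Set.mem_iInter.1 hω n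
      exact (h2.trans_le ((ENNReal.inv_le_inv.2 le_self_add).trans hn.le)).ne rfl
    rw [h0] at h1
    have h2 := ENNReal.Tendsto.const_mul (a := (lam : ℝ≥0∞)) h1
      (Or.inr (ENNReal.natCast_ne_top _))
    rw [mul_zero] at h2
    exact (h2.eventually_le_const (pos_iff_ne_zero.2 hq16)).exists
  set N : ℝ≥0∞ := (e + 1 : ℝ≥0∞)
  have hN : N ≠ ∞ := by simp [N]
  obtain ⟨m, hm⟩ := ENNReal.exists_nat_gt (ENNReal.div_ne_top hN hq16)
  have hm0 : (m : ℝ≥0∞) ≠ 0 := (lt_of_le_of_lt zero_le hm).ne'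
  obtain ⟨F, hF⟩ := hA m (Nat.pos_of_ne_zero fun h => hm0 (by simp [h]))
  set W := influx v μ l η (A * m) F
  have hW : Measurable W := measurable_influx v μ l η _ F
  set L := (lam : ℝ≥0∞) * m
  have hL0 : L ≠ 0 := mul_ne_zero hlam0 hm0
  have hLt : L ≠ ∞ := ENNReal.mul_ne_top (ENNReal.natCast_ne_top _) (ENNReal.natCast_ne_top _)
  have hsq : ∫⁻ ω, W ω * W ω ∂envLaw μ ≤ K * (m * m) := by
    have h1 := lintegral_sq_le v μ l η (A * m) F
    have h2 : ∫⁻ s, size v μ l η (A * m) s ∂law v μ ≤ η⁻¹ * (C * A) * m := by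
      refine le_of_mul_le (c := η) hη0 hηt ((hCh η (A * m)).trans (le_of_eq ?_))
      push_cast
      calc C * (A * m) = η⁻¹ * η * (C * A * m) := by
            rw [ENNReal.inv_mul_cancel hη0 hηt, one_mul, mul_assoc]
        _ = _ := by ring
    have hct : c ≠ ∞ := by
      refine ne_top_of_le_ne_top ENNReal.one_ne_top ((lintegral_mono fun ω => ?_).trans_eq
        (by simp : ∫⁻ _, (1 : ℝ≥0∞) ∂envLaw (d := d) μ = 1))
      exact prob_le_one
    refine le_of_mul_le (c := c) hc hct ?_
    calc c * ∫⁻ ω, W ω * W ω ∂envLaw μ = (∫⁻ ω, W ω * W ω ∂envLaw μ) * c := mul_comm _ _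
      _ ≤ (η⁻¹ * (C * A) * m) * (η⁻¹ * (C * A) * m) := h1.trans (mul_le_mul' h2 h2)
      _ = (η⁻¹ * (C * A)) * (η⁻¹ * (C * A)) * (c⁻¹ * c) * (m * m) := by
          rw [ENNReal.inv_mul_cancel hc hct, mul_one]; ring
      _ = _ := by simp only [K]; ring
  set S := {ω : Site d → Row k | f ω < N⁻¹}
  have hSm : MeasurableSet S := measurableSet_lt hf measurable_const
  have hpt : ∀ ω, W ω ≤ N * (W ω * f ω) + L * S.indicator 1 ω + L⁻¹ * (W ω * W ω) := by
    intro ω
    by_cases h : ω ∈ S
    · rw [Set.indicator_of_mem h, Pi.one_apply, mul_one]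
      rcases le_total (W ω) L with hl | hl
      · exact hl.trans (le_add_left le_rfl |>.trans le_self_add)
      · refine le_trans ?_ le_add_self
        calc W ω = L⁻¹ * (L * W ω) := by
              rw [← mul_assoc, ENNReal.inv_mul_cancel hL0 hLt, one_mul]
          _ ≤ _ := mul_le_mul' le_rfl (mul_le_mul' hl le_rfl)
    · have hN0 : N ≠ 0 := by simp [N]
      have h' : N⁻¹ ≤ f ω := not_lt.1 h
      refine le_trans ?_ (le_self_add.trans le_self_add)
      calc W ω = N * (W ω * N⁻¹) := by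
            rw [mul_left_comm, ENNReal.mul_inv_cancel hN0 hN, mul_one]
        _ ≤ _ := mul_le_mul' le_rfl (mul_le_mul' le_rfl h')
  have hfinal : (m : ℝ≥0∞) * (q / 4) ≤ m * (q16 + q16 + q16) := by
    refine hF.trans ((lintegral_mono hpt).trans ?_)
    have hWf : Measurable fun ω => W ω * f ω := hW.mul hf
    have hWW : Measurable fun ω => W ω * W ω := hW.mul hW
    rw [lintegral_add_right _ (hWW.const_mul _),
      lintegral_add_right _ ((measurable_one.indicator hSm).const_mul _),
      lintegral_const_mul' _ _ hN, lintegral_const_mul' _ _ hLt,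
      lintegral_const_mul' _ _ (ENNReal.inv_ne_top.2 hL0), lintegral_indicator_one hSm,
      mul_add, mul_add]
    refine add_le_add (add_le_add ?_ ?_) ?_
    · refine (mul_le_of_le_one_right' (lintegral_influx_fall_le v μ l η _ F)).trans ?_
      exact ((ENNReal.div_lt_iff (Or.inl hq16) (Or.inl hq16t)).1 hm).le
    · calc L * envLaw μ S = m * (lam * envLaw μ S) := by simp only [L]; ring
        _ ≤ _ := mul_le_mul' le_rfl he
    · calc L⁻¹ * ∫⁻ ω, W ω * W ω ∂envLaw μ ≤ L⁻¹ * (K * (m * m)) := mul_le_mul' le_rfl hsq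
        _ = L⁻¹ * L * m * (K / lam) := by
            simp only [L]
            rw [div_eq_mul_inv]
            calc ((lam : ℝ≥0∞) * m)⁻¹ * (K * (m * m))
                = ((lam : ℝ≥0∞) * m)⁻¹ * ((lam * (lam : ℝ≥0∞)⁻¹) * (K * (m * m))) := by
                  rw [ENNReal.mul_inv_cancel hlam0 (ENNReal.natCast_ne_top _), one_mul]
              _ = _ := by ring
        _ ≤ _ := by
            rw [ENNReal.inv_mul_cancel hL0 hLt, one_mul]
            refine mul_le_mul' le_rfl (ENNReal.div_le_of_le_mul ?_)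
            have := ((ENNReal.div_lt_iff (Or.inl hq16) (Or.inl hq16t)).1 hlam).le
            rwa [mul_comm]
  rw [ENNReal.mul_le_mul_iff_right hm0 (ENNReal.natCast_ne_top _),
    ← ENNReal.toReal_le_toReal (by simp [ENNReal.div_eq_top, hqt]) (by simp [hq16t])] at hfinal
  simp only [hq16d, ENNReal.toReal_add, ENNReal.toReal_div, ENNReal.toReal_ofNat,
    ne_eq, ENNReal.div_eq_top, hqt, ENNReal.add_eq_top, OfNat.ofNat_ne_zero, and_false,
    false_and, or_self, not_false_eq_true] at hfinal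
  have := ENNReal.toReal_pos hq hqt
  linarith

theorem no_range (hd : 4 ≤ d) (hell : ∀ i, ∀ᵐ p ∂μ, 0 < (p : Row k).1 i)
    (hunit : ∀ j, (∃ i, v i = Pi.single j 1) ∧ ∃ i, v i = Pi.single j (-1)) : NoRange v μ := by
  intro l hp hm hcard
  rw [neg_lvl] at hm hcard
  refine core v μ (-l) hd hell hunit (stayUp_ne_zero v μ _ hm) ?_ hcard
  rw [neg_lvl, neg_neg]
  exact stayUp_ne_zero v μ _ hp

/-- A nonzero velocity is almost sure and decides every escape event. -/
theorem velocity_is_sure (hd : 4 ≤ d) (hell : ∀ i, ∀ᵐ p ∂μ, 0 < (p : Row k).1 i)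
    (hunit : ∀ j, (∃ i, v i = Pi.single j 1) ∧ ∃ i, v i = Pi.single j (-1))
    {w : Fin d → ℝ} (hw0 : w ≠ 0) (hw : law v μ (speed v w) ≠ 0) :
    law v μ (speed v w) = 1 ∧ ∀ e : Fin d → ℝ,
      law v μ (Escape v e) = if 0 < ∑ j, e j * w j then 1 else 0 :=
  velocity_forces v μ (no_range v μ hd hell hunit) hell hunit hw0 hw

end Vale.Agent.P147.Rec
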