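import Vale.Agent.P147.Semi.Cross

/-!
P147, one thin escape side: two walks in one environment, each stopped by a rule on its prefix,
meet no more often than two walks in independent environments.
-/

open MeasureTheory Filter Finset
open scoped ENNReal

namespace Vale.Agent.P147.Rec

open Vale.Agent.P147.Cond Vale.Agent.P147.Dir Vale.Agent.P147.Dir.Blocks Vale.Agent.P147.Glue
open Vale.Agent.P147.Semi (pair_prefix)

set_option linter.unusedSectionVars false

variable {d k : ℕ} [NeZero k] (v : Fin k → Site d) (μ : Measure (Row k)) [IsProbabilityMeasure μ]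
  (P : ℕ → (ℕ → Fin k) → Prop)
  (hcongr : ∀ {n : ℕ} {s s' : ℕ → Fin k}, (∀ i < n, s' i = s i) → (P n s' ↔ P n s))
  (hmono : ∀ {n m : ℕ}, m ≤ n → ∀ {s : ℕ → Fin k}, P n s → P m s)

/-- Two walks meet at times allowed by `P`, the second one started at `z`. -/
def Meets (z : Site d) : Set ((ℕ → Fin k) × (ℕ → Fin k)) :=
  {x | ∃ i j, P i x.1 ∧ P j x.2 ∧ pos v x.1 i = z + pos v x.2 j}

include hcongr in
theorem measurableSet_pred (n : ℕ) : MeasurableSet {s | P n s} :=
  measurableSet_of_prefix n fun _ _ h hs => (hcongr h).1 hs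

/-- Meetings at times at most `N`. -/
def MeetN (z : Site d) (N : ℕ) : Set ((ℕ → Fin k) × (ℕ → Fin k)) :=
  {x | ∃ i j, i ≤ N ∧ j ≤ N ∧
    P i x.1 ∧ P j x.2 ∧ pos v x.1 i = z + pos v x.2 j}

/-- The second walk is alive before time `L`, which is `N` or the time of its death; the first
walk hits its alive sites for the first time at time `i`. -/
def Piece (z : Site d) (N i L : ℕ) (a b : ℕ → Fin k) : Prop :=
  i ≤ N ∧ L ≤ N ∧ (∀ j < L, P j b) ∧ (L = N ∨ ¬ P L b) ∧
  P i a ∧ (∃ j ≤ L, P j b ∧ pos v a i = z + pos v b j) ∧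
  ∀ i' < i, ∀ j ≤ L, P j b → pos v a i' ≠ z + pos v b j

include hcongr in
theorem piece_congr {z : Site d} {N i L : ℕ} {a a' b b' : ℕ → Fin k} (ha : ∀ q < i, a' q = a q)
    (hb : ∀ q < L, b' q = b q) (h : Piece v P z N i L a b) :
    Piece v P z N i L a' b' := by
  obtain ⟨h1, h2, h3, h4, h5, ⟨j, hj, h6, h7⟩, h8⟩ := h
  have hal : ∀ j ≤ L, (P j b' ↔ P j b) := fun j hj =>
    hcongr fun q hq => hb q (hq.trans_le hj)
  refine ⟨h1, h2, fun j hj => (hal j hj.le).2 (h3 j hj),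
    h4.imp id fun h hc => h ((hal L le_rfl).1 hc), (hcongr ha).2 h5,
    ⟨j, hj, (hal j hj).2 h6, ?_⟩, fun i' hi j hj hal' => ?_⟩
  · rwa [pos_congr v ha le_rfl, pos_congr v hb hj]
  · rw [pos_congr v ha hi.le, pos_congr v hb hj]
    exact h8 i' hi j hj ((hal j hj).1 hal')

include hmono in
theorem exists_piece {z : Site d} {N : ℕ} {x : (ℕ → Fin k) × (ℕ → Fin k)}
    (hx : x ∈ MeetN v P z N) : ∃ i L, Piece v P z N i L x.1 x.2 := by
  classical
  obtain ⟨i, j, hi, hj, hai, haj, e⟩ := hx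
  have hexL : ∃ L, L = N ∨ ¬ P L x.2 := ⟨N, Or.inl rfl⟩
  set L := Nat.find hexL
  have hLN : L ≤ N := Nat.find_min' hexL (Or.inl rfl)
  have hbefore : ∀ j' < L, P j' x.2 := fun j' hj' =>
    not_not.1 fun hc => Nat.find_min hexL hj' (Or.inr hc)
  have hjL : j ≤ L := by
    rcases Nat.find_spec hexL with h | h
    · exact hj.trans_eq h.symm
    · exact not_lt.1 fun hlt => h (hmono hlt.le haj)
  have hexi : ∃ i', ∃ j' ≤ L, P j' x.2 ∧ pos v x.1 i' = z + pos v x.2 j' :=
    ⟨i, j, hjL, haj, e⟩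
  have hii : Nat.find hexi ≤ i := Nat.find_min' hexi ⟨j, hjL, haj, e⟩
  exact ⟨Nat.find hexi, L, hii.trans hi, hLN, hbefore, Nat.find_spec hexL,
    hmono hii hai, Nat.find_spec hexi,
    fun i' hi' j' hj' hal he => Nat.find_min hexi hi' ⟨j', hj', hal, he⟩⟩

theorem piece_unique {z : Site d} {N i L i' L' : ℕ} {a b : ℕ → Fin k}
    (h : Piece v P z N i L a b) (h' : Piece v P z N i' L' a b) : i = i' ∧ L = L' := by
  obtain rfl : L = L' := by
    rcases lt_trichotomy L L' with hlt | heq | hgt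
    · rcases h.2.2.2.1 with e | e
      · exact absurd h'.2.1 (by omega)
      · exact absurd (h'.2.2.1 L hlt) e
    · exact heq
    · rcases h'.2.2.2.1 with e | e
      · exact absurd h.2.1 (by omega)
      · exact absurd (h.2.2.1 L' hgt) e
  refine ⟨?_, rfl⟩
  rcases lt_trichotomy i i' with hlt | heq | hgt
  · obtain ⟨j, hj, hal, e⟩ := h.2.2.2.2.2.1
    exact absurd e (h'.2.2.2.2.2.2 i hlt j hj hal)
  · exact heq
  · obtain ⟨j, hj, hal, e⟩ := h'.2.2.2.2.2.1
    exact absurd e (h.2.2.2.2.2.2 i' hgt j hj hal)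

include hcongr in
theorem measurableSet_meets (z : Site d) : MeasurableSet (Meets v P z) := by
  have e : Meets v P z = ⋃ (i : ℕ) (j : ℕ),
      (({s | P i s} ×ˢ {s | P j s}) ∩
        {x : (ℕ → Fin k) × (ℕ → Fin k) | pos v x.1 i = z + pos v x.2 j}) := by
    ext x; simp [Meets, and_assoc]
  rw [e]
  exact .iUnion fun i => .iUnion fun j =>
    ((measurableSet_pred P hcongr i).prod (measurableSet_pred P hcongr j)).inter
      (measurableSet_eq_fun ((measurable_pos v i).comp measurable_fst)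
        ((measurable_const (a := z)).add ((measurable_pos v j).comp measurable_snd)))

include hcongr hmono in
/-- Up to the first meeting one environment acts as two. -/
theorem pairLaw_meets (z : Site d) :
    pairLaw v μ z (Meets v P z) ≤
      ((law v μ).prod (law v μ)) (Meets v P z) := by
  classical
  have hU : Meets v P z = ⋃ N, MeetN v P z N := by
    ext x
    simp only [Meets, MeetN, Set.mem_iUnion, Set.mem_ofPred_eq]
    exact ⟨fun ⟨i, j, h⟩ => ⟨max i j, i, j, le_max_left _ _, le_max_right _ _, h⟩,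
      fun ⟨_, i, j, _, _, h⟩ => ⟨i, j, h⟩⟩
  have hM : Monotone (MeetN v P z) := fun N N' h x ⟨i, j, h1, h2, h3⟩ =>
    ⟨i, j, h1.trans h, h2.trans h, h3⟩
  conv_lhs => rw [hU]
  rw [hM.measure_iUnion]
  refine iSup_le fun N => ?_
  let ι := Σ i : Fin (N + 1), Σ L : Fin (N + 1), {p : (Fin i → Fin k) × (Fin L → Fin k) //
    Piece v P z N i L (ext' p.1) (ext' p.2)}
  let C : ι → Set ((ℕ → Fin k) × (ℕ → Fin k)) := fun p =>
    {t | ∀ q < (p.1 : ℕ), t q = ext' p.2.2.1.1 q} ×ˢ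
      {t | ∀ q < (p.2.1 : ℕ), t q = ext' p.2.2.1.2 q}
  have hPm : ∀ p, MeasurableSet (C p) := fun p =>
    (measurableSet_prefix _ _).prod (measurableSet_prefix _ _)
  have hsub : MeetN v P z N ⊆ ⋃ p, C p := fun x hx => by
    obtain ⟨i, L, hp⟩ := exists_piece v P hmono hx
    have e : ∀ (s : ℕ → Fin k) (n : ℕ), ∀ q < n, ext' (fun q : Fin n => s q) q = s q :=
      fun s n q hq => by simp [ext', hq]
    exact Set.mem_iUnion.2 ⟨⟨⟨i, Nat.lt_succ_of_le hp.1⟩, ⟨L, Nat.lt_succ_of_le hp.2.1⟩,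
      ⟨(fun q => x.1 q, fun q => x.2 q), piece_congr v P hcongr (e x.1 i) (e x.2 L) hp⟩⟩,
      fun q hq => (e x.1 i q hq).symm, fun q hq => (e x.2 L q hq).symm⟩
  have hP : ∀ p x, x ∈ C p → x ∈ Meets v P z := by
    rintro ⟨i, L, ⟨⟨w, w'⟩, hp⟩⟩ x ⟨hx1, hx2⟩
    obtain ⟨-, -, -, -, h5, ⟨j, -, h6, h7⟩, -⟩ :=
      piece_congr v P hcongr (a' := x.1) (b' := x.2) hx1 hx2 hp
    exact ⟨i, j, h5, h6, h7⟩
  have hdisj : Pairwise (Function.onFun Disjoint C) := by
    rintro ⟨i, L, ⟨⟨w, w'⟩, hp⟩⟩ ⟨i', L', ⟨⟨u, u'⟩, hq⟩⟩ hne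
    refine Set.disjoint_left.2 fun x hx hx' => hne ?_
    obtain ⟨e1, e2⟩ := piece_unique v P
      (piece_congr v P hcongr (a' := x.1) (b' := x.2) hx.1 hx.2 hp)
      (piece_congr v P hcongr (a' := x.1) (b' := x.2) hx'.1 hx'.2 hq)
    obtain rfl : i = i' := Fin.ext e1
    obtain rfl : L = L' := Fin.ext e2
    obtain rfl : w = u := funext fun q => by
      simpa [ext'] using (hx.1 q q.2).symm.trans (hx'.1 q q.2)
    obtain rfl : w' = u' := funext fun q => by
      simpa [ext'] using (hx.2 q q.2).symm.trans (hx'.2 q q.2)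
    rfl
  calc pairLaw v μ z (MeetN v P z N) ≤ pairLaw v μ z (⋃ p, C p) := measure_mono hsub
    _ ≤ ∑' p, pairLaw v μ z (C p) := measure_iUnion_le _
    _ = ∑' p, ((law v μ).prod (law v μ)) (C p) := tsum_congr fun p => by
        obtain ⟨i, L, ⟨⟨w, w'⟩, hp⟩⟩ := p
        rw [Measure.prod_prod]
        exact pair_prefix v μ z _ _ _ _ fun i' hi j hj =>
          hp.2.2.2.2.2.2 i' hi j hj.le (hp.2.2.1 j hj)
    _ = ((law v μ).prod (law v μ)) (⋃ p, C p) := (measure_iUnion hdisj hPm).symm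
    _ ≤ _ := measure_mono (Set.iUnion_subset hP)

end Vale.Agent.P147.Rec
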