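import Vale.Agent.P147.Rec.Flux
import Vale.Agent.P147.Semi.Meet

/-!
P147, one thin escape side: an alive walk below the height `h` visits `O(h)` sites in the mean,
so two such walks from starts differing by `u` meet for `O(h * h)` shifts `u` in the mean.
-/

open MeasureTheory Filter Finset
open scoped ENNReal

namespace Vale.Agent.P147.Rec

open Vale.Agent.P147.Cond Vale.Agent.P147.Dir Vale.Agent.P147.Dir.Blocks Vale.Agent.P147.Glue
open Vale.Agent.P147.Speed
open Vale.Agent.P147.Semi (lvl lev lvl_eq Alive alive_hit neg_lvl lev_eq_hi)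

set_option linter.unusedSectionVars false

variable {d k : ℕ} [NeZero k] (v : Fin k → Site d) (μ : Measure (Row k)) [IsProbabilityMeasure μ]
  (l : Fin d → ℤ) (η : ℝ≥0∞) (h : ℕ)

/-- The sites of the good prefixes. -/
def visited (s : ℕ → Fin k) : Set (Site d) := {x | ∃ n, Good v μ l η h n s ∧ pos v s n = x}

/-- Their number. -/
noncomputable def size (s : ℕ → Fin k) : ℝ≥0∞ := ∑' x, (visited v μ l η h s).indicator 1 x

theorem measurableSet_visited (x : Site d) : MeasurableSet {s | x ∈ visited v μ l η h s} := by
  have e : {s | x ∈ visited v μ l η h s} =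
      ⋃ n, {s | Good v μ l η h n s} ∩ {s | pos v s n ∈ ({x} : Set (Site d))} := by
    ext s; simp [visited]
  rw [e]
  exact .iUnion fun n => (measurableSet_of_prefix n fun s s' hs hg =>
    (good_congr v μ l η h hs).1 hg).inter (measurableSet_pos_mem v n _)

theorem measurable_ind (x : Site d) :
    Measurable fun s => (visited v μ l η h s).indicator (1 : Site d → ℝ≥0∞) x := by
  have e : (fun s => (visited v μ l η h s).indicator (1 : Site d → ℝ≥0∞) x) =
      {s | x ∈ visited v μ l η h s}.indicator 1 := by
    funext s
    by_cases hs : x ∈ visited v μ l η h s <;> simp [hs]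
  rw [e]
  exact measurable_one.indicator (measurableSet_visited v μ l η h x)

theorem measurable_size : Measurable (size v μ l η h) := Measurable.tsum (measurable_ind v μ l η h)

/-- Meetings, summed over the shifts of the second start. -/
theorem sum_meets_le (U : Finset (Site d)) :
    ∑ u ∈ U, ((law v μ).prod (law v μ)) (Meets v (Good v μ l η h) u) ≤
      (∫⁻ s, size v μ l η h s ∂law v μ) * ∫⁻ s, size v μ l η h s ∂law v μ := by
  classical
  have hm := measurableSet_meets v (Good v μ l η h)
    (fun hs => good_congr v μ l η h hs)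
  simp only [← lintegral_indicator_one (hm _)]
  rw [← lintegral_finsetSum' _ fun u _ => (measurable_one.indicator (hm u)).aemeasurable,
    ← lintegral_prod_mul (measurable_size v μ l η h).aemeasurable
      (measurable_size v μ l η h).aemeasurable]
  refine lintegral_mono fun x => ?_
  set A := visited v μ l η h x.1
  set B := visited v μ l η h x.2
  calc ∑ u ∈ U, (Meets v (Good v μ l η h) u).indicator (1 : (ℕ → Fin k) × (ℕ → Fin k) → ℝ≥0∞) x
      ≤ ∑ u ∈ U, ∑' y, A.indicator (1 : Site d → ℝ≥0∞) (u + y) * B.indicator 1 y := by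
        refine sum_le_sum fun u _ => ?_
        by_cases hx : x ∈ Meets v (Good v μ l η h) u
        · obtain ⟨i, j, hi, hj, e⟩ := hx
          refine le_trans ?_ (ENNReal.le_tsum (pos v x.2 j))
          rw [Set.indicator_of_mem (show u + pos v x.2 j ∈ A from ⟨i, hi, e⟩),
            Set.indicator_of_mem (show pos v x.2 j ∈ B from ⟨j, hj, rfl⟩),
            Set.indicator_of_mem (show x ∈ Meets v (Good v μ l η h) u from ⟨i, j, hi, hj, e⟩)]
          simp
        · simp [hx]
    _ ≤ ∑' u, ∑' y, A.indicator (1 : Site d → ℝ≥0∞) (u + y) * B.indicator 1 y :=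
        ENNReal.sum_le_tsum _
    _ = ∑' y, (∑' u, A.indicator (1 : Site d → ℝ≥0∞) (u + y)) * B.indicator 1 y := by
        rw [ENNReal.tsum_comm]
        simp only [ENNReal.tsum_mul_right]
    _ = size v μ l η h x.1 * size v μ l η h x.2 := by
        rw [size, size, ← ENNReal.tsum_mul_left]
        exact tsum_congr fun y => congrArg (· * _) ((Equiv.addRight y).tsum_eq (A.indicator 1))

/-- An alive walk visits boundedly many sites per height in the mean. -/
theorem exists_size_bound (hq : law v μ (StayUp v (lvl l)) ≠ 0)
    (hcard : ∫⁻ t, ((futW v (blk0 v (lvl l) t)).card : ℝ≥0∞) ∂upLaw v μ (lvl l) ≠ ⊤) :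
    ∃ C : ℝ≥0∞, C ≠ ⊤ ∧ ∀ (η : ℝ≥0∞) (h : ℕ),
      η * ∫⁻ s, size v μ l η h s ∂law v μ ≤ C * h := by
  classical
  have := isProb_upLaw v μ (lvl l) hq
  set ν := (upLaw v μ (lvl l)).map (blk0 v (lvl l)) with hν
  have : IsProbabilityMeasure ν :=
    Measure.isProbabilityMeasure_map (meas_blk0 v _).aemeasurable
  refine ⟨∫⁻ b, ((futW v b).card : ℝ≥0∞) ∂ν, ?_, fun η h => ?_⟩
  · rwa [hν, lintegral_map (f := fun b : Blk k => ((futW v b).card : ℝ≥0∞))
      (measurable_of_countable _) (meas_blk0 v _)]
  have hΦ : Measurable fun (t : ℕ → Fin k) (i : ℕ) => block v (lvl l) i t :=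
    measurable_pi_lambda _ fun i => measurable_block v (lvl l) i
  have hinj : ∀ᵐ c ∂iid ν, Function.Injective fun q => hi l (start (disp v) c q) := by
    have hq' : law v μ (StayUp v (-lvl (-l))) ≠ 0 := by rwa [neg_lvl, neg_neg]
    have h1 := Semi.ae_heights_injective v μ (-l) hq'
    rw [neg_lvl, neg_neg, ← hν] at h1
    filter_upwards [h1] with c hc q q' he
    exact hc (show hi (-l) _ = hi (-l) _ by simpa [hi] using he)
  let ψ : ℤ → ℝ≥0∞ := fun y => if 0 ≤ y ∧ y < h then 1 else 0
  have hψ : ∑' y, ψ y = h := by
    rw [tsum_eq_sum (s := Finset.Ico (0 : ℤ) h) fun y hy => if_neg (by simpa using hy),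
      sum_congr rfl fun y hy => if_pos (by simpa using hy), sum_const, nsmul_eq_mul, mul_one]
    simp
  let hit : Site d → Set (ℕ → Fin k) := fun x => {t | ∃ n, pos v t n = x}
  have hhit : ∀ x, MeasurableSet (hit x) := fun x => by
    rw [show hit x = ⋃ n, {t | pos v t n ∈ ({x} : Set (Site d))} by ext; simp [hit]]
    exact .iUnion fun n => measurableSet_pos_mem v n _
  let F : (ℕ → Blk k) → ℝ≥0∞ := fun c =>
    ∑' p, ∑ w ∈ futW v (c p), ψ (0 + (hi l (start (disp v) c p) + hi l w))
  have hFm : Measurable F := Measurable.tsum fun p => Measurable.comp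
    (g := fun y : Site d × Blk k => ∑ w ∈ futW v y.2, ψ (0 + (hi l y.1 + hi l w)))
    (f := fun c : ℕ → Blk k => (start (disp v) c p, c p)) (measurable_of_countable _)
    ((measurable_start (disp v) p).prodMk (measurable_pi_apply p))
  calc η * ∫⁻ s, size v μ l η h s ∂law v μ
      = ∑' x, η * law v μ {s | x ∈ visited v μ l η h s} := by
        simp only [size]
        rw [lintegral_tsum fun x => (measurable_ind v μ l η h x).aemeasurable,
          ← ENNReal.tsum_mul_left]
        refine tsum_congr fun x => congrArg _ ?_
        rw [← lintegral_indicator_one (measurableSet_visited v μ l η h x)]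
        exact lintegral_congr fun s => by simp [Set.indicator_apply]
    _ ≤ ∑' x, ψ (hi l x) * upLaw v μ (lvl l) (hit x) := by
        refine ENNReal.tsum_le_tsum fun x => ?_
        by_cases hx : hi l x < h
        · refine le_trans (mul_le_mul' le_rfl (measure_mono ?_))
            ((alive_hit v μ (lvl l) η {x}).trans ?_)
          · rintro s ⟨n, hn, e⟩
            exact ⟨n, hn.1, e⟩
          by_cases hx0 : 0 ≤ hi l x
          · rw [show ψ (hi l x) = 1 from if_pos ⟨hx0, hx⟩, one_mul,
              upLaw_apply v μ _ (hhit x)]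
            refine le_trans (measure_mono ?_) (le_mul_of_one_le_left' ?_)
            · rintro s ⟨hs, n, hn⟩; exact ⟨hs, n, hn⟩
            · exact ENNReal.one_le_inv.2 prob_le_one
          · refine le_trans (le_of_eq ?_) zero_le
            refine measure_mono_null ?_ (measure_empty (μ := law v μ))
            rintro s ⟨hs, n, hn⟩
            have h1 := hs.1 n
            rw [lvl_eq, lev_eq_hi, show pos v s n = x from hn] at h1
            exact hx0 (by exact_mod_cast h1)
        · refine le_trans (le_of_eq ?_) zero_le
          rw [mul_eq_zero]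
          refine Or.inr (measure_mono_null ?_ (measure_empty (μ := law v μ)))
          rintro s ⟨n, hn, e⟩
          have h1 := hn.2 n le_rfl
          rw [lev_eq_hi, e] at h1
          exact hx h1
    _ = ∫⁻ t, ∑' x, ψ (hi l x) * (hit x).indicator 1 t ∂upLaw v μ (lvl l) := by
        rw [lintegral_tsum fun x => ((measurable_one.indicator (hhit x)).const_mul _).aemeasurable]
        exact tsum_congr fun x => by
          rw [lintegral_const_mul _ (measurable_one.indicator (hhit x)),
            lintegral_indicator_one (hhit x)]
    _ ≤ ∫⁻ t, F (fun i => block v (lvl l) i t) ∂upLaw v μ (lvl l) := by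
        refine lintegral_mono_ae ?_
        filter_upwards [regTime_reg v μ (lvl l) hq] with t hr
        set c : ℕ → Blk k := fun i => block v (lvl l) i t
        calc ∑' x, ψ (hi l x) * (hit x).indicator 1 t
            ≤ ∑' x, ∑' p, ∑ w ∈ futW v (c p),
                if start (disp v) c p + w = x then ψ (hi l x) else 0 := by
              refine ENNReal.tsum_le_tsum fun x => ?_
              by_cases hx : t ∈ hit x
              · obtain ⟨n, rfl⟩ := hx
                obtain ⟨p, w, hw, hpw⟩ := pos_mem_futOcc hr n
                rw [Set.indicator_of_mem (by exact ⟨n, rfl⟩), Pi.one_apply, mul_one]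
                refine le_trans ?_ (ENNReal.le_tsum p)
                refine le_trans ?_ (single_le_sum (fun _ _ => zero_le) hw)
                rw [if_pos (show start (disp v) c p + w = pos v t n from hpw)]
              · simp [hx]
          _ = F c := by
              rw [ENNReal.tsum_comm]
              refine tsum_congr fun p => ?_
              rw [Summable.tsum_finsetSum fun _ _ => ENNReal.summable]
              refine sum_congr rfl fun w _ => ?_
              rw [tsum_ite_eq']
              simp
    _ = ∫⁻ c, F c ∂iid ν := by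
        rw [← lintegral_map hFm hΦ, map_block v μ (lvl l) hq]
    _ ≤ _ := lintegral_heights_le (hi l) ν (disp v) (futW v) hinj 0 ψ
    _ = _ := by rw [hψ]

end Vale.Agent.P147.Rec
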